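import Vale.Agent.P287D.Lc.St

/-!
# P287D, row TRK: flags, walls, the leaves (statements and glue)
-/

set_option linter.unusedVariables false

open Set

noncomputable section

namespace Vale.Agent.P287D.Tk

section defs

variable {K : Type} [Field K] [Algebra ℂ K]

/-- `G` does not vanish at the flag `(P, Q)` -/
def Nv (P : Pl K) (Q : Pl P.κ) (G : BD K) : Prop := G P = 0 ∧ res P G Q = 0

/-- two flags have the same centre on `V Λ` -/
def Sm (Λ : BD K) (P : Pl K) (Q : Pl P.κ) (P' : Pl K) (Q' : Pl P'.κ) : Prop :=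
  ∀ G, Rep Λ G → (Nv P Q G ↔ Nv P' Q' G)

/-- `f` is in the local ring of `V Λ` at the centre of the flag -/
def Lr (Λ : BD K) (P : Pl K) (Q : Pl P.κ) (f : K) : Prop :=
  ∃ (G : BD K) (c : ℝ), Rep Λ G ∧ Nv P Q G ∧ 0 < c ∧ Sec (c • G) f

/-- the field of the centre of the flag on `V Λ` is the residue field of `Q` -/
def Onto (Λ : BD K) (P : Pl K) (Q : Pl P.κ) : Prop := ∀ u : Q.κ, ∃ f, Lr Λ P Q f ∧ Q.rd (P.rd f) = u

open Classical in
/-- a chamber `V (Λ + ε • h E)` of the program with scaling of `E` over `V Y` and its lower wall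
`V Λ`; `T` are the exceptional primes, `h` the hulls, `k` the canonical divisor, `A` the nef part -/
structure Wall (Y G b : BD K) (E : Pl K) (T : Finset (Pl K)) (Λ k B A H : BD K) (h : Pl K → BD K)
    (u ε : ℝ) (y : Pl K → ℝ) : Prop where
  u0 : 0 < u
  e0 : 0 < ε
  smp : Smp Λ
  big : Big Λ
  des : Dsc (Λ + ε • h E) Λ
  desY : Dsc Λ Y
  off : ∀ P ∈ T, ¬ On 3 Y P
  on : ∀ P, On 3 (Λ + ε • h E) P → On 3 Y P ∨ P ∈ T
  kh : Hull 3 (Λ + ε • h E) (cn K 4) k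
  hh : ∀ P ∈ T, Hull 3 (Λ + ε • h E) P.δ (h P)
  he : Hull 3 (Λ + ε • h E) E.δ (h E)
  b0 : 0 ≤ B
  bc : B ∈ Car K
  bz : ∀ P, On 3 (Λ + ε • h E) P → B P = 0
  smpA : Smp A
  eq : Λ = k + ∑ P ∈ T, h P + u • h E + B + A
  lc : Lc 4 (k + ∑ P ∈ T, h P + u • h E + B)
  dlt : ∀ P ∈ T, On 3 (Λ + ε • h E) P → ∀ η : ℝ, 0 < η →
    Klt 3 (adj 3 P (k + h P + (1 - η) • ∑ R ∈ T.erase P, h R + u • h E + B))
  desH : Dsc Y H
  eqH : Λ = H + ∑ P ∈ T, y P • h P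
  half : ∀ P ∈ T, y P ≤ 0 → b P - dsc 4 G P < 2 → 1 / 2 < u

/-- the output -/
def Fin' (L : Type) [Field L] [Algebra ℂ L] (K : Type) [Field K] [Algebra ℂ K] : Prop :=
  ∃ (P : Pl K) (τ : Pl P.κ) (X Γ X₀ : BD P.κ), Nonempty (τ.κ ≃ₐ[ℂ] L) ∧ Lc.Out τ X Γ X₀

end defs

/-- the data of the row -/
def ForT (S : ∀ (K : Type) [Field K] [Algebra ℂ K], BD K → BD K → BD K → Pl K → Prop) : Prop :=
  ∀ (K : Type) [Field K] [Algebra ℂ K], FF K 4 → ∀ (Y G b : BD K) (E : Pl K), Term 3 Y G → QF 3 Y →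
    On 3 Y E → Hull 3 Y E.δ b → S K Y G b E

/-- **SETI**: the program with scaling of `E`, as an induction principle -/
def SETI : Prop := ForT fun K _ _ Y G b E => ∀ S : BD K → Prop,
  (∀ Λ Λ', Dsc Λ' Λ → S Λ → S Λ') →
  (∀ X k e, Big X → Dsc X Y → Hull 3 X (cn K 4) k → Hull 3 X E.δ e → Klt 3 (adj 3 E (k + e)) →
    S X) →
  (∀ T Λ k B A H h u ε y, Wall Y G b E T Λ k B A H h u ε y → S (Λ + ε • h E) → S Λ) →
  ∃ T Λ k B A H h u ε y, Wall Y G b E T Λ k B A H h u ε y ∧ S (Λ + ε • h E) ∧ ∀ P ∈ T, 0 < y P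

/-- **LFT**: a surface in a prime divisor is the centre of a flag of the prime divisor -/
def LFT : Prop := ∀ (n : ℕ) (K : Type) [Field K] [Algebra ℂ K], FF K (n + 2) →
  ∀ (X w : BD K) (E W : Pl K) (σ : Pl E.κ), Smp X → Big X → On (n + 1) X E → On (n + 1) X W →
    W ≠ E → Hull (n + 1) X W.δ w → On n (res E X) σ → 0 < res E w σ →
    ∃ τ : Pl W.κ, On n (res W X) τ ∧ Sm X E σ W τ

/-- **TRF**: the dimension of the centre depends only on the centre -/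
def TRF : Prop := ∀ (n : ℕ) (K : Type) [Field K] [Algebra ℂ K], FF K (n + 2) →
  ∀ (Λ : BD K) (P P' : Pl K) (Q : Pl P.κ) (Q' : Pl P'.κ), Smp Λ → Sm Λ P Q P' Q' →
    On n (res P Λ) Q → On n (res P' Λ) Q'

/-- **ONT**: sections lift from a plt prime, so the residues of the local ring upstairs are those
of the local ring of the prime -/
def ONT : Prop := ∀ (n : ℕ) (K : Type) [Field K] [Algebra ℂ K], FF K (n + 2) →
  ∀ (X Λ Γ : BD K) (c : ℝ) (P : Pl K) (Q : Pl P.κ), Big X → Dsc X Λ → Smp Λ → Bdy (n + 1) X Γ →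
    Nef (c • Λ - Γ) → Big (c • Λ - Γ) → dsc (n + 2) Γ P = -1 → Klt (n + 1) (adj (n + 1) P Γ) →
    (Big (res P Λ) → On n (res P Λ) Q → Onto Λ P Q) ∧
    (Hor (fld (res P Λ)) Q → Q.rd '' (fld (res P Λ) : Set P.κ) = univ → Onto Λ P Q)

/-- **STA**: the start -/
def STA : Prop := ForT fun K _ _ Y G b E => ∀ σ : Pl E.κ, pg σ.κ 2 ≠ 0 → ∀ X k e, Big X →
  Dsc X Y → Hull 3 X (cn K 4) k → Hull 3 X E.δ e → Klt 3 (adj 3 E (k + e)) → Onto X E σ

/-- **STP**: one wall -/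
def STP : Prop := ForT fun K _ _ Y G b E => ∀ σ : Pl E.κ, pg σ.κ 2 ≠ 0 → ¬ On 2 (res E Y) σ →
  -2 < dsc 3 (adj 3 E (G + b)) σ → ∀ T Λ k B A H h u ε y, Wall Y G b E T Λ k B A H h u ε y →
    Onto (Λ + ε • h E) E σ → (∃ P ∈ T, y P ≤ 0) ∧ (Onto Λ E σ ∨ Fin' σ.κ K)

/-- **MON**: the local rings grow -/
def MON : Prop := ∀ (n : ℕ) (K : Type) [Field K] [Algebra ℂ K], FF K (n + 1) →
  ∀ (Λ Λ' : BD K) (P : Pl K) (Q : Pl P.κ), Dsc Λ' Λ → Onto Λ P Q → Onto Λ' P Q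

theorem trk_of (mon : MON) (seti : SETI) (sta : STA) (stp : STP) : Lc.TRK := by
  intro K _ _ hK Y G b E σ t q o hb p a a'
  by_contra c
  obtain ⟨T, Λ, k, B, A, H, h, u, ε, y, w, s, z⟩ := seti K hK Y G b E t q o hb (Onto · E σ)
    (fun Λ Λ' => mon 3 K hK Λ Λ' E σ) (sta K hK Y G b E t q o hb σ p)
    fun T Λ k B A H h u ε y w s =>
      (stp K hK Y G b E t q o hb σ p a a' T Λ k B A H h u ε y w s).2.resolve_right c
  obtain ⟨P, hP, e⟩ := (stp K hK Y G b E t q o hb σ p a a' T Λ k B A H h u ε y w s).1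
  exact (z P hP).not_ge e

end Vale.Agent.P287D.Tk
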