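import Vale.Agent.P287D.Tk.Wal
import Vale.Agent.P287D.Ad.All

/-!
# P287D, row TRK: the coefficients along a wall
-/

set_option linter.all false

open Set

noncomputable section

namespace Vale.Agent.P287D.Tk

variable {K : Type} [Field K] [Algebra ℂ K] {Y G b Λ k B A H : BD K} {E j l : Pl K}
  {T : Finset (Pl K)} {h : Pl K → BD K} {u ε : ℝ} {y : Pl K → ℝ}

theorem adj_sub {n : ℕ} (hK : FF K (n + 1)) (P : Pl K) {Γ D : BD K} (a : Γ ∈ Car K)
    (d : D ∈ Car K) (Q : Pl P.κ) :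
    dsc n (adj n P (Γ + D)) Q = dsc n (adj n P Γ) Q - res P D Q := by
  rw [(a4 n K hK P Γ a D d).1]
  simp only [dsc, Pi.sub_apply, Pi.add_apply]
  ring

theorem inv_le_of {x : ℝ} {r : ℕ} (hr : 0 < r) {z : ℤ} (e : x = z / r) (p : 0 < x) :
    1 / (r : ℝ) ≤ x := by
  have r0 : (0 : ℝ) < r := Nat.cast_pos.2 hr
  have : (0 : ℝ) < z := by
    rw [e] at p
    exact (div_pos_iff_of_pos_right r0).1 p
  have : (1 : ℝ) ≤ z := by exact_mod_cast (show (1 : ℤ) ≤ z from Int.cast_pos.1 this)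
  rw [e]
  exact div_le_div_of_nonneg_right this r0.le

theorem hull_int {n : ℕ} {X w : BD K} {P : Pl K} (a : Hull n X P.δ w) (R : Pl K) (o : On n X R) :
    ∃ z : ℤ, w R = z := by
  rw [a.2 R o, Pl.δ]
  split_ifs
  exacts [⟨1, by simp⟩, ⟨0, by simp⟩]

theorem hull_ne {n : ℕ} {X w : BD K} {P R : Pl K} (a : Hull n X P.δ w) (o : On n X R)
    (e : R ≠ P) : w R = 0 := by rw [a.2 R o, Pl.δ, if_neg e]

theorem hull_self {n : ℕ} {X w : BD K} {P : Pl K} (a : Hull n X P.δ w) (o : On n X P) :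
    w P = 1 := by rw [a.2 P o, Pl.δ, if_pos rfl]

namespace Cx

variable (c : Cx Y G b E T Λ k B A H h u ε y) (hj : j ∈ T) (oj : On 3 (Λ + ε • h E) j)
include c hj oj

theorem rest_nn (Q : Pl j.κ) : u * res j (h E) Q ≤ res j (u • h E + B) Q := by
  rw [res_add c.hK j (Submodule.smul_mem _ _ c.he.1.car) c.bc, res_smul c.hK j _ c.he.1.car]
  exact le_add_of_nonneg_right (res_nonneg c.hK j c.bc c.b0 (c.bz j oj) Q)

theorem resE_nn : 0 ≤ res j (h E) :=
  res_nonneg c.hK j c.he.1.car c.e0' (hull_ne c.he oj (c.ne hj))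

theorem resl_nn (hl : l ∈ T) (ne : l ≠ j) : 0 ≤ res j (h l) :=
  res_nonneg c.hK j (c.hh l hl).1.car (c.h0 hl) (hull_ne (c.hh l hl) oj ne.symm)

theorem plt (Q : Pl j.κ) : -1 < dsc 3 (adj 3 j (k + h j)) Q := by
  have a := c.dlt j hj oj 1 one_pos Q
  rw [sub_self, zero_smul, add_zero, add_assoc (k + h j),
    adj_sub c.hK j (add_mem c.kh.1.car (c.hh j hj).1.car)
      (add_mem (Submodule.smul_mem _ _ c.he.1.car) c.bc)] at a
  have := c.rest_nn hj oj Q
  have := mul_nonneg c.u0.le (c.resE_nn hj oj Q)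
  linarith

theorem ge1 (hl : l ∈ T) (ne : l ≠ j) {Q : Pl j.κ} (oQ : On 2 (res j (Λ + ε • h E)) Q)
    (p : res j (h l) Q ≠ 0) : dsc 3 (adj 3 j (k + h j + h l)) Q ≤ -1 := by
  obtain ⟨r, r0, e, f⟩ := a6 2 K c.hK _ j c.smpX c.bigX oj _ (c.kh.add (c.hh j hj)) Q oQ
    (c.plt hj oj Q)
  obtain ⟨z, f⟩ := (f _ (c.hh l hl).1 (hull_int (c.hh l hl))).1
  have := inv_le_of r0 f ((c.resl_nn hj oj hl ne Q).lt_of_ne' p)
  rw [adj_sub c.hK j (add_mem c.kh.1.car (c.hh j hj).1.car) (c.hh l hl).1.car, e]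
  linarith

theorem one {τ : Pl j.κ} (oτ : On 2 (res j (Λ + ε • h E)) τ) (e : 0 < res j (h E) τ) :
    ∀ l ∈ T, l ≠ j → res j (h l) τ = 0 := fun l hl ne => by
  classical
  by_contra p
  have a := c.ge1 hj oj hl ne oτ p
  have cs : ∀ S ⊆ T, ∑ P ∈ S, h P ∈ Car K := fun S s =>
    sum_mem fun P hP => (c.hh P (s hP)).1.car
  have cE := add_mem (Submodule.smul_mem _ u c.he.1.car) c.bc
  have s : (T.erase j).erase l ⊆ T := (Finset.erase_subset _ _).trans (Finset.erase_subset _ _)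
  have z : k + ∑ P ∈ T, h P + u • h E + B =
      k + h j + h l + ∑ P ∈ (T.erase j).erase l, h P + (u • h E + B) := by
    rw [← Finset.add_sum_erase T h hj,
      ← Finset.add_sum_erase _ h (Finset.mem_erase.2 ⟨ne, hl⟩ : l ∈ T.erase j)]
    abel
  have c3 := add_mem (add_mem c.kh.1.car (c.hh j hj).1.car) (c.hh l hl).1.car
  have s0 : ∀ P ∈ (T.erase j).erase l, P ≠ j := fun P hP =>
    Finset.ne_of_mem_erase (Finset.mem_of_mem_erase hP)
  have m : dsc 4 (k + ∑ P ∈ T, h P + u • h E + B) j = -1 := by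
    have : ∑ P ∈ (T.erase j).erase l, h P j = 0 :=
      Finset.sum_eq_zero fun P hP => hull_ne (c.hh P (s hP)) oj (s0 P hP).symm
    simp [z, dsc, c.kh.2 j oj, hull_self (c.hh j hj) oj, hull_ne (c.hh l hl) oj ne.symm,
      hull_ne c.he oj (c.ne hj), c.bz j oj, this]
  have lc := (a2l 3 K c.hK j _ (z ▸ add_mem (add_mem c3 (cs _ s)) cE) m).2.1 c.lc τ
  rw [z, adj_sub c.hK j (add_mem c3 (cs _ s)) cE, adj_sub c.hK j c3 (cs _ s),
    res_sum c.hK j _ fun P hP => (c.hh P (s hP)).1.car, Finset.sum_apply] at lc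
  have := Finset.sum_nonneg fun P (hP : P ∈ (T.erase j).erase l) =>
    c.resl_nn hj oj (s hP) (s0 P hP) τ
  have := c.rest_nn hj oj τ
  have := mul_pos c.u0 e
  simp only [Pi.zero_apply] at *
  linarith

theorem resE_pos {σ : Pl E.κ} {τ : Pl j.κ} (s : Sm (Λ + ε • h E) E σ j τ) : 0 < res j (h E) τ :=
  s.pos c.hK c.he.1 c.e0' (hull_ne c.he oj (c.ne hj)) fun a => by
    have := a.1
    rw [hull_self c.he c.onE] at this
    exact one_ne_zero this

theorem coef {σ : Pl E.κ} {τ : Pl j.κ} (oσ : On 2 (res E (Λ + ε • h E)) σ)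
    (oτ : On 2 (res j (Λ + ε • h E)) τ) (s : Sm (Λ + ε • h E) E σ j τ) (p : 0 < res E (h j) σ)
    (a : -2 < dsc 3 (adj 3 E (G + b)) σ) :
    ∃ v, 0 < v ∧ v < u ∧ dsc 3 (adj 3 j (k + h j + v • h E)) τ < -1 / 2 := by
  have e0 := c.resE_pos hj oj s
  have u0 := c.u0
  have cj := (c.hh j hj).1.car
  obtain ⟨r, r0, e, f⟩ := a6 2 K c.hK _ j c.smpX c.bigX oj _ (c.kh.add (c.hh j hj)) τ oτ
    (c.plt hj oj τ)
  obtain ⟨z, g⟩ := (f _ c.he.1 (hull_int c.he)).1
  have e1 := inv_le_of r0 g e0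
  have w : ∀ v : ℝ, dsc 3 (adj 3 j (k + h j + v • h E)) τ =
      -(1 - 1 / (r : ℝ)) - v * res j (h E) τ := fun v => by
    rw [adj_sub c.hK j (add_mem c.kh.1.car cj) (Submodule.smul_mem _ _ c.he.1.car), e,
      res_smul c.hK j _ c.he.1.car]
    rfl
  obtain rfl | r2 : r = 1 ∨ 2 ≤ r := by omega
  · obtain ⟨z, g⟩ := (f _ (c.hh j hj).1 (hull_int (c.hh j hj))).1
    obtain ⟨x, D, D', x0, d, d', q⟩ := a7 2 K c.hK _ j c.smpX c.bigX oj _ (c.kh.add (c.hh j hj)) τ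
      oτ (c.plt hj oj τ) _ (c.hh j hj).1 (hull_int (c.hh j hj)) ⟨z, by simpa using g⟩
    have n := (s.symm.nv c.hK d.des d.nn ⟨d.zp, d.zq⟩).sub c.hK
      (s.symm.nv c.hK d'.des d'.nn ⟨d'.zp, d'.zq⟩) d.des.car d'.des.car
    obtain ⟨m, hm⟩ := CarZ.int (res_carZ c.hK E (dv_mem_CarZ x)) σ
    have n2 := n.2
    rw [← q, res_add c.hK E cj (dv_mem_Car x), Pi.add_apply, hm] at n2
    have m1 := inv_le_of one_pos (z := -m) (by push_cast; linarith) p
    have dE := c.kh.1.add c.he.1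
    have v : ∀ P, On 3 (Λ + ε • h E) P → dsc 4 (k + h E) P = -E.δ P := fun P o => by
      simp [dsc, c.kh.2 P o, c.he.2 P o]
    have b3 := a3 2 K c.hK _ E c.smpX c.bigX c.onE _ dE (fun P o => by
      rw [v P o, Pl.δ]
      split_ifs <;> simp) (by simp [v E c.onE, Pl.δ]) σ oσ
    have cs : ∀ P ∈ T, (b P - dsc 4 G P) • h P ∈ Car K := fun P hP =>
      Submodule.smul_mem _ _ (c.hh P hP).1.car
    have i : G + b = k + h E + ∑ P ∈ T, (b P - dsc 4 G P) • h P := by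
      have i1 := c.eqb
      have i2 := c.eqk
      simp only [sub_smul, Finset.sum_sub_distrib]
      generalize ∑ P ∈ T, b P • h P = S at i1 ⊢
      generalize ∑ P ∈ T, dsc 4 G P • h P = S' at i2 ⊢
      rw [i1, i2]
      abel
    rw [i, adj_sub c.hK E dE.car (sum_mem cs), res_sum c.hK E _ cs, Finset.sum_apply,
      Finset.sum_eq_single_of_mem j hj fun l hl ne => by
        rw [res_smul c.hK E _ (c.hh l hl).1.car, Pi.smul_apply,
          (s.symm.nv c.hK (c.hh l hl).1 (c.h0 hl)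
            ⟨hull_ne (c.hh l hl) oj ne.symm, c.one hj oj oτ e0 l hl ne⟩).2, smul_zero],
      res_smul c.hK E _ cj, Pi.smul_apply, smul_eq_mul] at a
    simp only [Nat.cast_one, div_one] at m1 e1 w
    have u2 := c.half j hj (c.yle hj oj) (by nlinarith)
    refine ⟨(u + 1 / 2) / 2, by linarith, by linarith, ?_⟩
    rw [w]
    nlinarith
  · refine ⟨u / 2, half_pos u0, half_lt_self u0, ?_⟩
    have : 1 / (r : ℝ) ≤ 1 / 2 := one_div_le_one_div_of_le two_pos (by exact_mod_cast r2)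
    have := mul_pos (half_pos u0) e0
    rw [w]
    linarith

end Cx

end Vale.Agent.P287D.Tk
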