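import Vale.Agent.P287D.Tk.St
import Vale.Agent.P287D.Ba.Hy
import Vale.Agent.P287D.Ad.Gen
import Vale.Agent.P287D.Va.Fld

/-!
# P287D, row TRK: flags and their local rings
-/

open Set
open Vale.Agent.P297Z.Pl

noncomputable section

namespace Vale.Agent.P287D.Tk

variable {K : Type} [Field K] [Algebra ℂ K] {n : ℕ} {Λ Λ' G G' β : BD K} {P P' P'' : Pl K}
  {Q : Pl P.κ} {Q' : Pl P'.κ} {Q'' : Pl P''.κ} {f g : K} {c : ℝ}

theorem Sm.symm (h : Sm Λ P Q P' Q') : Sm Λ P' Q' P Q := fun G r => (h G r).symm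

theorem Sm.trans (h : Sm Λ P Q P' Q') (h' : Sm Λ P' Q' P'' Q'') : Sm Λ P Q P'' Q'' :=
  fun G r => (h G r).trans (h' G r)

theorem Sm.lr (h : Sm Λ P Q P' Q') (e : Lr Λ P Q f) : Lr Λ P' Q' f :=
  let ⟨G, c, r, a, b⟩ := e
  ⟨G, c, r, (h G r).1 a, b⟩

section

variable (hK : FF K (n + 1))
include hK

theorem avoid (h : Smp Λ) (P : Pl K) (Q : Pl P.κ) : ∃ G, Rep Λ G ∧ Nv P Q G :=
  Ae.exists_rep_res res' hK h P Q

theorem Nv.add (h : Nv P Q G) (h' : Nv P Q G') (a : G ∈ Car K) (a' : G' ∈ Car K) :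
    Nv P Q (G + G') :=
  ⟨by simp [h.1, h'.1], by rw [res_add hK P a a']; simp [h.2, h'.2]⟩

theorem Nv.smul (h : Nv P Q G) (a : G ∈ Car K) (c : ℝ) : Nv P Q (c • G) :=
  ⟨by simp [h.1], by rw [res_smul hK P c a]; simp [h.2]⟩

theorem Nv.sub (h : Nv P Q G) (h' : Nv P Q G') (a : G ∈ Car K) (a' : G' ∈ Car K) :
    Nv P Q (G - G') :=
  ⟨by simp [h.1, h'.1], by rw [res_sub hK P a a']; simp [h.2, h'.2]⟩

theorem Nv.of_le (h : Nv P Q G) (a : G ∈ Car K) (a' : G' ∈ Car K) (h0 : 0 ≤ G') (e : G' ≤ G) :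
    Nv P Q G' := by
  have z : G' P = 0 := le_antisymm (h.1 ▸ e P) (h0 P)
  exact ⟨z, le_antisymm (h.2 ▸ res_mono hK P a' a e (z.trans h.1.symm) Q)
    (res_nonneg hK P a' h0 z Q)⟩

theorem Nv.of_smul (h : Nv P Q (c • G)) (a : G ∈ Car K) (hc : c ≠ 0) : Nv P Q G := by
  simpa [smul_smul, hc] using h.smul hK (Submodule.smul_mem _ c a) c⁻¹

/-- effective divisors of `V Λ` see only the centre -/
theorem Sm.nv (h : Sm Λ P Q P' Q') (d : Dsc Λ G) (h0 : 0 ≤ G) (e : Nv P Q G) : Nv P' Q' G := by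
  obtain ⟨ε, e0, s⟩ := d.exists_sub
  obtain ⟨G₁, r, a⟩ := avoid hK s P Q
  have c := Submodule.smul_mem _ ε d.car
  have r' := r.add ((Rep.refl h0).smul e0.le)
  rw [sub_add_cancel] at r'
  exact (((h _ r').1 (a.add hK (e.smul hK d.car ε) (r.car s.car) c)).of_le hK (r'.car d.smp.car) c
    (smul_nonneg e0.le h0) (le_add_of_nonneg_left r.1)).of_smul hK d.car e0.ne'

theorem Sm.down (h : Sm Λ P Q P' Q') (d : Dsc Λ Λ') : Sm Λ' P Q P' Q' := fun _ r =>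
  ⟨h.nv hK (d.congr r.2) r.1, h.symm.nv hK (d.congr r.2) r.1⟩

theorem Sm.pos (h : Sm Λ P Q P' Q') (d : Dsc Λ G) (h0 : 0 ≤ G) (z : G P' = 0)
    (e : ¬ Nv P Q G) : 0 < res P' G Q' :=
  (res_nonneg hK P' d.car h0 z Q').lt_of_ne fun k => e (h.symm.nv hK d h0 ⟨z, k.symm⟩)

theorem lr_of (hΛ : Dsc Λ G) (h0 : 0 ≤ G) (e : Nv P Q G) (s : Sec G f) : Lr Λ P Q f := by
  obtain ⟨ε, e0, k⟩ := hΛ.exists_sub
  obtain ⟨G₁, r, a⟩ := avoid hK k P Q
  have r' := r.add ((Rep.refl h0).smul e0.le)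
  rw [sub_add_cancel] at r'
  refine ⟨_, ε⁻¹, r', a.add hK (e.smul hK hΛ.car ε) (r.car k.car)
    (Submodule.smul_mem _ ε hΛ.car), inv_pos.2 e0, s.mono ?_⟩
  rw [smul_add, smul_smul, inv_mul_cancel₀ e0.ne', one_smul]
  exact le_add_of_nonneg_left (smul_nonneg (inv_pos.2 e0).le r.1)

theorem Lr.mono (h : Lr Λ P Q f) (d : Dsc Λ' Λ) : Lr Λ' P Q f :=
  let ⟨_, c, r, a, b, s⟩ := h
  lr_of hK ((d.congr r.2).smul c) (smul_nonneg b.le r.1) (a.smul hK (r.car d.car) c) s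

theorem Lr.mem (h : Lr Λ P Q f) (hΛ : Λ ∈ Car K) : f ∈ P.ring ∧ P.rd f ∈ Q.ring := by
  obtain ⟨G, c, r, a, -, s⟩ := h
  have k := Submodule.smul_mem _ c (r.car hΛ)
  have a' := a.smul hK (r.car hΛ) c
  have u : ∀ {L : Type} [Field L] [Algebra ℂ L] {β : BD L} {x : L} {R : Pl L}, Sec β x → β R = 0 →
      x ∈ R.ring := fun {_} _ _ _ x R s z => by
    by_cases e : x = 0
    · exact e ▸ zero_mem _
    · have : (0 : ℝ) ≤ (R.ord x : ℝ) := by simpa [z, dv_apply] using s.resolve_left e R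
      exact (ord_nonneg_iff _ e).1 (by exact_mod_cast this)
  exact ⟨u s a'.1, u (res_sec0 hK P k a'.1 s) a'.2⟩

/-- the local ring of `V Λ` at the centre of the flag -/
def loc (hΛ : Smp Λ) (P : Pl K) (Q : Pl P.κ) : Subalgebra ℂ K where
  carrier := {f | Lr Λ P Q f}
  mul_mem' := fun ⟨G, c, r, a, b, s⟩ ⟨G', c', r', a', b', s'⟩ =>
    have d := ((Dsc.refl hΛ).congr r.2).smul c
    have d' := ((Dsc.refl hΛ).congr r'.2).smul c'
    lr_of hK (d.add d') (add_nonneg (smul_nonneg b.le r.1) (smul_nonneg b'.le r'.1))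
      ((a.smul hK (r.car hΛ.car) c).add hK (a'.smul hK (r'.car hΛ.car) c') d.car d'.car) (s.mul s')
  add_mem' := fun ⟨G, c, r, a, b, s⟩ ⟨G', c', r', a', b', s'⟩ =>
    have d := ((Dsc.refl hΛ).congr r.2).smul c
    have d' := ((Dsc.refl hΛ).congr r'.2).smul c'
    have p := smul_nonneg b.le r.1
    have p' := smul_nonneg b'.le r'.1
    lr_of hK (d.add d') (add_nonneg p p')
      ((a.smul hK (r.car hΛ.car) c).add hK (a'.smul hK (r'.car hΛ.car) c') d.car d'.car)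
      ((s.mono (le_add_of_nonneg_right p')).add (s'.mono (le_add_of_nonneg_left p)))
  algebraMap_mem' := fun c => lr_of hK (Dsc.zero hΛ) le_rfl ⟨rfl, by rw [res_zero hK]; rfl⟩
    (Or.inr (by rw [dv_const, add_zero]))

theorem mem_loc (hΛ : Smp Λ) : f ∈ loc hK hΛ P Q ↔ Lr Λ P Q f := Iff.rfl

theorem Sm.loc_eq (h : Sm Λ P Q P' Q') (hΛ : Smp Λ) : loc hK hΛ P Q = loc hK hΛ P' Q' :=
  Subalgebra.ext fun _ => ⟨h.lr, h.symm.lr⟩

/-- the residue at the flag, on any ring of functions which are regular at the centre -/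
def ev (hΛ : Smp Λ) (P : Pl K) (Q : Pl P.κ) (O : Subalgebra ℂ K) (h : ∀ f ∈ O, Lr Λ P Q f) :
    O →ₐ[ℂ] Q.κ where
  toFun f := Q.rd (P.rd f)
  map_one' := by simp only [OneMemClass.coe_one, Bm.rd_one]
  map_mul' f g := by
    have a := (h f f.2).mem hK hΛ.car
    have b := (h g g.2).mem hK hΛ.car
    rw [MulMemClass.coe_mul, Bm.rd_mul P a.1 b.1, Bm.rd_mul Q a.2 b.2]
  map_zero' := by simp only [ZeroMemClass.coe_zero, Ae.rd_zero]
  map_add' f g := by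
    have a := (h f f.2).mem hK hΛ.car
    have b := (h g g.2).mem hK hΛ.car
    rw [AddMemClass.coe_add, Bm.rd_add P a.1 b.1, Bm.rd_add Q a.2 b.2]
  commutes' c := by
    rw [Subalgebra.coe_algebraMap, Bm.rd_const, Bm.rd_const]

theorem ev_apply (hΛ : Smp Λ) {O : Subalgebra ℂ K} (h : ∀ f ∈ O, Lr Λ P Q f) (f : O) :
    ev hK hΛ P Q O h f = Q.rd (P.rd f) := rfl

/-- units of the flag -/
theorem rd_ne_iff (a : f ∈ P.ring) (b : P.rd f ∈ Q.ring) :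
    Q.rd (P.rd f) ≠ 0 ↔ f ≠ 0 ∧ Nv P Q (dv f) := by
  rw [Ne, Bm.rd_zero_iff Q b, Bm.rd_zero_iff P a]
  constructor
  · intro h
    simp only [not_or, not_lt] at h
    have z := le_antisymm h.1.2 (ord_nonneg_of_mem _ a)
    refine ⟨h.1.1, by simp [dv_apply, z], ?_⟩
    rw [res_dv_unit hK P h.1.1 z, dv_apply, le_antisymm h.2 (ord_nonneg_of_mem _ b), Int.cast_zero]
  · rintro ⟨f0, x, y⟩
    have z : P.ord f = 0 := by exact_mod_cast (dv_apply f P).symm.trans x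
    rw [res_dv_unit hK P f0 z, dv_apply] at y
    have w : Q.ord (P.rd f) = 0 := by exact_mod_cast y
    simp [f0, z, w]

/-- the maximal ideal depends only on the centre -/
theorem Sm.ker (h : Sm Λ P Q P' Q') (hΛ : Smp Λ) (e : Lr Λ P Q f) (k : Q.rd (P.rd f) = 0) :
    Q'.rd (P'.rd f) = 0 := by
  by_contra x
  have m := e.mem hK hΛ.car
  have m' := (h.lr e).mem hK hΛ.car
  obtain ⟨f0, x⟩ := (rd_ne_iff hK m'.1 m'.2).1 x
  obtain ⟨G, c, r, a, -, s⟩ := e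
  have d := ((Dsc.refl hΛ).congr r.2).smul c
  have y := h.symm.nv hK ((Dsc.dv hΛ f).add d) (s.resolve_left f0)
    (x.add hK (((h G r).1 a).smul hK (r.car hΛ.car) c) (dv_mem_Car f) d.car)
  have z := y.sub hK (a.smul hK (r.car hΛ.car) c) (add_mem (dv_mem_Car f) d.car) d.car
  rw [add_sub_cancel_right] at z
  exact (rd_ne_iff hK m.1 m.2).2 ⟨f0, z⟩ k

theorem Lr.inv (hΛ : Smp Λ) (e : Lr Λ P Q f) (k : Q.rd (P.rd f) ≠ 0) : Lr Λ P Q f⁻¹ := by
  have m := e.mem hK hΛ.car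
  obtain ⟨f0, x⟩ := (rd_ne_iff hK m.1 m.2).1 k
  obtain ⟨G, c, r, a, b, s⟩ := e
  have d := ((Dsc.refl hΛ).congr r.2).smul c
  refine lr_of hK ((Dsc.dv hΛ f).add d) (s.resolve_left f0)
    (x.add hK (a.smul hK (r.car hΛ.car) c) (dv_mem_Car f) d.car) (Or.inr ?_)
  rw [dv_inv, neg_add_cancel_left]
  exact smul_nonneg b.le r.1

/-- two flags with the same centre and the same field as the centre -/
theorem Sm.iso (h : Sm Λ P Q P' Q') (hΛ : Smp Λ) (o : Onto Λ P Q) (o' : Onto Λ P' Q') :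
    Nonempty (Q.κ ≃ₐ[ℂ] Q'.κ) := by
  let φ := ev hK hΛ P Q (loc hK hΛ P Q) fun _ => id
  let φ' := ev hK hΛ P' Q' (loc hK hΛ P Q) fun _ => h.lr
  have s : Function.Surjective φ := fun u => let ⟨f, a, b⟩ := o u; ⟨⟨f, a⟩, b⟩
  have s' : Function.Surjective φ' := fun u => let ⟨f, a, b⟩ := o' u; ⟨⟨f, h.symm.lr a⟩, b⟩
  have e : RingHom.ker φ = RingHom.ker φ' :=
    Ideal.ext fun f => ⟨h.ker hK hΛ f.2, h.symm.ker hK hΛ (h.lr f.2)⟩
  exact ⟨((Ideal.quotientKerAlgEquivOfSurjective s).symm.trans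
    (Ideal.quotientEquivAlgOfEq ℂ e)).trans (Ideal.quotientKerAlgEquivOfSurjective s')⟩

/-- the field of the centre on a lower model -/
theorem Sm.onto (h : Sm Λ P Q P' Q') (d : Dsc Λ Λ') (o : Onto Λ P Q) (o' : Onto Λ' P' Q') :
    Onto Λ' P Q := fun u => by
  obtain ⟨f, a, rfl⟩ := o u
  obtain ⟨g, b, e⟩ := o' (Q'.rd (P'.rd f))
  refine ⟨g, (h.down hK d).symm.lr b, ?_⟩
  let φ := ev hK d.smp P Q (loc hK d.smp P Q) fun _ => id
  let φ' := ev hK d.smp P' Q' (loc hK d.smp P Q) fun _ => h.lr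
  let x : loc hK d.smp P Q := ⟨g, h.symm.lr (b.mono hK d)⟩
  let y : loc hK d.smp P Q := ⟨f, a⟩
  have k : φ' (x - y) = 0 := by rw [map_sub]; exact sub_eq_zero.2 e
  have k' : φ (x - y) = 0 := h.symm.ker hK d.smp (h.lr (x - y).2) k
  rw [map_sub] at k'
  exact sub_eq_zero.1 k'

theorem Lr.fld (h : Lr Λ P Q f) (hΛ : Smp Λ) : Q.rd (P.rd f) ∈ fld (res Q (res P Λ)) := by
  obtain ⟨G, c, r, a, b, s⟩ := h
  have hP := Bm.ff_κ hK P
  have k := Submodule.smul_mem _ c (r.car hΛ.car)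
  have a' := a.smul hK (r.car hΛ.car) c
  have s' := res_sec0 hP Q (res_car hK P _) a'.2 (res_sec0 hK P k a'.1 s)
  have r' := res_rep hP Q (res_car hK P _) (res_rep hK P hΛ.car r a.1) a.2
  rw [res_smul hK P c (r.car hΛ.car), res_smul hP Q c (res_car hK P _)] at s'
  have o : Sec (c • res Q (res P G)) 1 := sec_one.2 (smul_nonneg b.le r'.1)
  have := s'.div_mem o
  rwa [div_one, fld_smul b, fld_congr r'.2] at this

end

theorem Onto.on (hK : FF K (n + 2)) (h : Onto Λ P Q) (hΛ : Smp Λ) : On n (res P Λ) Q := by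
  have hP := Bm.ff_κ hK P
  have s := res_smp hK P hΛ
  refine (res'.on n _ hP _ Q s).2 ((big_iff_fld (res_smp hP Q s).eff).2 (eq_top_iff.2 fun u _ => ?_))
  obtain ⟨f, a, rfl⟩ := h u
  exact a.fld hK hΛ

theorem mon : MON := fun _ _ _ _ hK _ _ _ _ d o u =>
  let ⟨f, a, b⟩ := o u
  ⟨f, a.mono hK d, b⟩

end Vale.Agent.P287D.Tk
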