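import Vale.Agent.P287D.Tk.St
import Vale.Agent.P287D.Va.Des
import Vale.Agent.P287D.Api.Zar
import Vale.Agent.P287D.Gm.Loc
import Vale.Agent.P287D.On.Val

/-!
# P287D, row TRK: flags and sections
-/

set_option linter.unusedSectionVars false

open Set
open Vale.Agent.P297Z.Pl

noncomputable section

namespace Vale.Agent.P287D.Tk.Lf

variable {K : Type} [Field K] [Algebra ℂ K] {n : ℕ} {P P' : Pl K} {Q : Pl P.κ} {Q' : Pl P'.κ}
  {β γ G X : BD K} {s : Finset K} {f : K}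

/-- the valuation ring of a flag -/
def fv (P : Pl K) (Q : Pl P.κ) : ValuationSubring K where
  carrier := {f | f ∈ P.ring ∧ P.rd f ∈ Q.ring}
  mul_mem' h h' := ⟨mul_mem h.1 h'.1, Bm.rd_mul P h.1 h'.1 ▸ mul_mem h.2 h'.2⟩
  one_mem' := ⟨one_mem _, Bm.rd_one P ▸ one_mem _⟩
  add_mem' h h' := ⟨add_mem h.1 h'.1, Bm.rd_add P h.1 h'.1 ▸ add_mem h.2 h'.2⟩
  zero_mem' := ⟨zero_mem _, Gm.rd_zero (P := P) ▸ zero_mem _⟩
  neg_mem' := fun {x} h => ⟨neg_mem h.1, by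
    have e := Cb.rd_sub (P := P) (zero_mem _) h.1
    rw [zero_sub, Gm.rd_zero, zero_sub] at e
    exact e ▸ neg_mem h.2⟩
  mem_or_inv_mem' f := by
    by_cases f0 : f = 0
    · exact Or.inl (f0 ▸ ⟨zero_mem _, Gm.rd_zero (P := P) ▸ zero_mem _⟩)
    have z : ∀ g : K, g⁻¹ ∉ P.ring → g ∈ P.ring ∧ P.rd g ∈ Q.ring := fun g h =>
      have m := (P.ring.mem_or_inv_mem g).resolve_right h
      ⟨m, (Bm.rd_zero_iff P m).2 (Or.inr (ord_pos_of_inv_notMem _ h)) ▸ zero_mem _⟩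
    by_cases a : f⁻¹ ∈ P.ring
    · by_cases b : f ∈ P.ring
      · exact (Q.ring.mem_or_inv_mem (P.rd f)).imp (fun c => ⟨b, c⟩)
          fun c => ⟨a, Bm.rd_inv P b a f0 ▸ c⟩
      · exact Or.inr (z _ (by rwa [inv_inv]))
    · exact Or.inl (z _ a)

theorem mem_fv : f ∈ fv P Q ↔ f ∈ P.ring ∧ P.rd f ∈ Q.ring := Iff.rfl

theorem mz_zero (h1 : 1 ∈ s) (h2 : ∀ f ∈ s, f ∈ P.ring) : P.mz s = 0 := by
  rw [P.mz_eq h1 one_ne_zero fun g hg _ => by simpa using ord_nonneg_of_mem _ (h2 g hg)]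
  simp

theorem rs_eq (h1 : 1 ∈ s) (h2 : ∀ f ∈ s, f ∈ P.ring) : (P.rs s : Set P.κ) = P.rd '' s := by
  classical
  simp [Pl.rs, mz_zero h1 h2]

theorem one_rs (h1 : 1 ∈ s) (h2 : ∀ f ∈ s, f ∈ P.ring) : (1 : P.κ) ∈ P.rs s := by
  rw [← Finset.mem_coe, rs_eq h1 h2]
  exact ⟨1, h1, Bm.rd_one P⟩

variable (hK : FF K n)
include hK

theorem nv_mx (h1 : 1 ∈ s) (h2 : ∀ f ∈ s, f ∈ fv P Q) : Nv P Q (mx s) := by
  have a := fun f hf => (h2 f hf).1
  refine ⟨by simp [mx_apply, mz_zero h1 a], ?_⟩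
  rw [res_mx hK, mx_apply, mz_zero (one_rs h1 a) fun u hu => ?_, Int.cast_zero]
  rw [← Finset.mem_coe, rs_eq h1 a] at hu
  obtain ⟨g, hg, rfl⟩ := hu
  exact (h2 g hg).2

theorem nv_add (hβ : β ∈ Car K) (hγ : γ ∈ Car K) (a : Nv P Q β) (b : Nv P Q γ) :
    Nv P Q (β + γ) :=
  ⟨by simp [a.1, b.1], by simp [res_add hK P hβ hγ, a.2, b.2]⟩

theorem nv_smul (c : ℝ) (hβ : β ∈ Car K) (a : Nv P Q β) : Nv P Q (c • β) :=
  ⟨by simp [a.1], by simp [res_smul hK P c hβ, a.2]⟩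

theorem nv_sum {ι : Type*} (T : Finset ι) {b : ι → BD K} (h : ∀ i ∈ T, b i ∈ Car K ∧ Nv P Q (b i)) :
    Nv P Q (∑ i ∈ T, b i) :=
  (Finset.sum_induction b (fun β => β ∈ Car K ∧ Nv P Q β)
    (fun _ _ a c => ⟨add_mem a.1 c.1, nv_add hK a.1 c.1 a.2 c.2⟩)
    ⟨zero_mem _, rfl, by simp [res_zero hK]⟩ h).2

theorem nv_le (hβ : β ∈ Car K) (hγ : γ ∈ Car K) (h0 : 0 ≤ β) (e : β ≤ γ) (a : Nv P Q γ) :
    Nv P Q β :=
  have b : β P = 0 := le_antisymm (a.1 ▸ e P) (h0 P)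
  ⟨b, le_antisymm (a.2 ▸ res_mono hK P hβ hγ e (b.trans a.1.symm) Q) (res_nonneg hK P hβ h0 b Q)⟩

/-- a semiample class has a member which misses a given flag -/
theorem nv_rep (P : Pl K) (Q : Pl P.κ) (h : Smp β) : ∃ F, Rep β F ∧ Nv P Q F := by
  classical
  refine h.ind (p := fun β => ∃ F, Rep β F ∧ Nv P Q F) (fun s hs => ?_)
    (fun a b ha hb ⟨F, r, v⟩ ⟨F', r', v'⟩ =>
      ⟨_, r.add r', nv_add hK (r.car ha.car) (r'.car hb.car) v v'⟩)
    fun c a hc ha ⟨F, r, v⟩ => ⟨_, r.smul hc, nv_smul hK c (r.car ha.car) v⟩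
  obtain ⟨g, g1, g2, g3⟩ := Gm.exists_nrm (fv P Q) hs
  have o : (1 : K) ∈ s.image (· * g⁻¹) := Finset.mem_image.2 ⟨g, g1, mul_inv_cancel₀ g2⟩
  refine ⟨_, ⟨mx_nonneg o, ?_⟩, nv_mx hK o fun f hf => ?_⟩
  · rw [mx_image_mul hs (inv_ne_zero g2), sub_sub_cancel_left]
    exact neg_mem (dv_mem_Prn _)
  · obtain ⟨z, hz, rfl⟩ := Finset.mem_image.1 hf
    exact g3 z hz

theorem nv_indep {m : ℕ} {r : Fin m → ℝ} (hr : LinearIndependent ℤ r) {b : Fin m → BD K}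
    (hb : ∀ j, b j ∈ CarZ K) (h : Nv P Q (∑ j, r j • b j)) (j : Fin m) : Nv P Q (b j) := by
  refine ⟨indep_zero hr (fun j => CarZ.int (hb j)) h.1 j,
    indep_zero hr (b := fun j => res P (b j)) (fun j => CarZ.int (res_carZ hK P (hb j))) ?_ j⟩
  rw [← h.2, res_sum hK P _ fun j _ => Submodule.smul_mem _ _ (CarZ.car (hb j))]
  simp only [res_smul hK P _ (CarZ.car (hb _))]

/-- a function and its flag -/
theorem nv_dv (f0 : f ≠ 0) (hf : f ∈ fv P Q) : Nv P Q (dv f) ↔ Q.rd (P.rd f) ≠ 0 := by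
  refine ⟨fun h => ?_, fun h => ?_⟩
  · have a : P.ord f = 0 := Int.cast_eq_zero.1 h.1
    have b := h.2
    rw [res_dv_unit hK P f0 a] at b
    exact Loq.rd_ne (Loq.rd_ne f0 a) (Int.cast_eq_zero.1 b)
  · have a : P.rd f ≠ 0 := fun e => h (e ▸ Gm.rd_zero)
    have b : P.ord f = 0 := le_antisymm (not_lt.1 fun e => a ((Bm.rd_zero_iff P hf.1).2 (Or.inr e)))
      (ord_nonneg_of_mem _ hf.1)
    have c : Q.ord (P.rd f) = 0 := le_antisymm
      (not_lt.1 fun e => h ((Bm.rd_zero_iff Q hf.2).2 (Or.inr e))) (ord_nonneg_of_mem _ hf.2)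
    exact ⟨by simp [dv_apply, b], by rw [res_dv_unit hK P f0 b]; simp [dv_apply, c]⟩

theorem sec_fv (hβ : β ∈ Car K) (a : Nv P Q β) (h : Sec β f) : f ∈ fv P Q := by
  have z : ∀ {F : Type} [Field F] [Algebra ℂ F] {R : Pl F} {b : BD F} {g : F}, Sec b g → b R = 0 →
      g ∈ R.ring := fun {_ _ _ R b g} h e => by
    by_cases g0 : g = 0
    · exact g0 ▸ zero_mem _
    have := h.resolve_left g0 R
    simp only [Pi.zero_apply, Pi.add_apply, dv_apply, e, add_zero] at this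
    exact (ord_nonneg_iff _ g0).1 (by exact_mod_cast this)
  exact ⟨z h a.1, z (res_sec0 hK P hβ a.1 h) a.2⟩

omit hK in
/-- a divisor which is supported in an effective one is dominated by it -/
theorem dom (hK : FF K (n + 1)) (hX : Smp X) (bX : Big X) (d : Dsc X β) (d' : Dsc X G) (h0 : 0 ≤ G)
    (h : ∀ R, G R = 0 → β R = 0) : ∃ C : ℝ, 0 ≤ C ∧ 0 ≤ C • G + β ∧ 0 ≤ C • G - β := by
  classical
  have fin := Pr.fin_on res' hK hX bX ((Api.mod.isb n K hK).1 β d.car)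
  have nn : ∀ R ∈ fin.toFinset, 0 ≤ |β R| / G R := fun R _ => div_nonneg (abs_nonneg _) (h0 R)
  have k : ∀ R, On n X R → |β R| ≤ (∑ R ∈ fin.toFinset, |β R| / G R) * G R := fun R hR => by
    by_cases e : β R = 0
    · rw [e, abs_zero]; exact mul_nonneg (Finset.sum_nonneg nn) (h0 R)
    · have p : 0 < G R := (h0 R).lt_of_ne fun e' => e (h R e'.symm)
      exact (div_le_iff₀ p).1 (Finset.single_le_sum nn (fin.mem_toFinset.2 ⟨hR, e⟩))
  refine ⟨_, Finset.sum_nonneg nn, (Api.neg.nn n K hK X _ hX bX ((d'.smul _).add d) fun R hR => ?_).1,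
    (Api.neg.nn n K hK X _ hX bX ((d'.smul _).sub d) fun R hR => ?_).1⟩
  · have := abs_le.1 (k R hR)
    simp only [Pi.add_apply, Pi.smul_apply, smul_eq_mul]
    linarith [this.1]
  · have := abs_le.1 (k R hR)
    simp only [Pi.sub_apply, Pi.smul_apply, smul_eq_mul]
    linarith [this.2]

omit hK in
/-- the integral members of the multiples of a system -/
def zs (s : Finset K) : AddSubgroup (BD K) where
  carrier := {β | ∃ (c : ℤ) (g : K), g ≠ 0 ∧ β = dv g + (c : ℝ) • mx s}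
  zero_mem' := ⟨0, 1, one_ne_zero, by simp⟩
  add_mem' := fun ⟨c, g, g0, e⟩ ⟨c', g', g0', e'⟩ => ⟨c + c', g * g', mul_ne_zero g0 g0', by
    rw [e, e', dv_mul g0 g0', Int.cast_add, add_smul]; abel⟩
  neg_mem' := fun ⟨c, g, g0, e⟩ => ⟨-c, g⁻¹, inv_ne_zero g0, by
    rw [e, dv_inv, Int.cast_neg, neg_smul, neg_add]⟩

omit hK in
theorem zs_split (h : Rep (mx s) G) : ∃ (m : ℕ) (r : Fin m → ℝ) (b : Fin m → BD K),
    LinearIndependent ℤ r ∧ (∀ j, b j ∈ zs s) ∧ G = ∑ j, r j • b j := by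
  classical
  obtain ⟨T, c, h0, e⟩ := mem_Prn.1 h.2
  obtain ⟨m, r, a, hr, e'⟩ := exists_indep T.insertNone fun o => o.elim 1 c
  refine ⟨m, r, _, hr, fun j => sum_mem fun o ho => ?_,
    Eq.trans ?_ (sum_indep e' fun o => o.elim (mx s) dv)⟩
  · rw [Int.cast_smul_eq_zsmul]
    refine zsmul_mem ?_ _
    cases o with
    | none => exact ⟨1, 1, one_ne_zero, by simp⟩
    | some f => exact ⟨0, f, h0 f (by simpa using ho), by simp⟩
  · rw [Finset.sum_insertNone]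
    simp [← e]

omit hK in
/-- **SEC**: the centre of a flag is determined by the sections of the multiples of a system -/
theorem sec (hK : FF K (n + 1)) (bX : Big X) (a : AmpOn X (mx s))
    (h : ∀ (c : ℝ) (f : K), f ≠ 0 → Sec (c • mx s) f → Nv P Q (dv f + c • mx s) →
      Nv P' Q' (dv f + c • mx s)) (r : Rep X G) (v : Nv P Q G) : Nv P' Q' G := by
  have hX := a.smp_left
  have cG := r.car hX.car
  obtain ⟨ε, e0, e1⟩ := ((hX.ampOn_congr r.2).symm.trans a).2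
  obtain ⟨F, f1, f2⟩ := nv_rep hK P Q e1
  have cF := f1.car e1.car
  have r' : Rep (mx s) (ε • G + F) := by
    simpa using ((Rep.refl r.1).smul e0.le).add f1
  have cH := r'.car (mx_mem_Car s)
  have dH : Dsc X (ε • G + F) := a.1.congr r'.2
  have vH := nv_add hK (Submodule.smul_mem _ ε cG) cF (nv_smul hK ε cG v) f2
  suffices k : Nv P' Q' (ε • G + F) by
    simpa [smul_smul, e0.ne'] using nv_smul hK ε⁻¹ (Submodule.smul_mem _ ε cG)
      (nv_le hK (Submodule.smul_mem _ ε cG) cH (smul_nonneg e0.le r.1)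
        (le_add_of_nonneg_right f1.1) k)
  generalize ε • G + F = H at r' cH dH vH
  obtain ⟨m, ρ, b, hρ, hb, e⟩ := zs_split r'
  have bz : ∀ j, b j ∈ CarZ K := fun j =>
    let ⟨c, g, _, e⟩ := hb j
    e ▸ add_mem (dv_mem_CarZ g) (CarZ.zsmul (mx_mem_CarZ s) c)
  have bd : ∀ j, Dsc X (b j) := fun j =>
    let ⟨c, g, _, e⟩ := hb j
    e ▸ (Dsc.dv hX g).add (a.1.smul _)
  choose C c0 c1 c2 using fun j => dom hK hX bX (bd j) dH r'.1 fun R hR =>
    indep_zero hρ (fun j => CarZ.int (bz j)) (e ▸ hR) j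
  set N : ℝ := 1 + ∑ j, C j
  obtain ⟨c, g, g0, eg⟩ : ∑ j, ((⌊N * ρ j⌋ : ℤ) : ℝ) • b j ∈ zs s := sum_mem fun j _ => by
    rw [Int.cast_smul_eq_zsmul]; exact zsmul_mem (hb j) _
  have le : H ≤ dv g + (c : ℝ) • mx s := fun R => by
    have h1 : H R = ∑ j, ρ j * b j R := by rw [e]; simp
    have h2 : ∀ j, N * (ρ j * b j R) - C j * H R ≤ ((⌊N * ρ j⌋ : ℤ) : ℝ) * b j R := fun j => by
      have x1 : 0 ≤ C j * H R + b j R := c1 j R
      have x2 : 0 ≤ C j * H R - b j R := c2 j R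
      have x3 := Int.floor_le (N * ρ j)
      have x4 := Int.lt_floor_add_one (N * ρ j)
      nlinarith
    have h3 := Finset.sum_le_sum fun j (_ : j ∈ Finset.univ) => h2 j
    rw [Finset.sum_sub_distrib, ← Finset.mul_sum, ← Finset.sum_mul, ← h1] at h3
    rw [← eg]
    simp only [Finset.sum_apply, Pi.smul_apply, smul_eq_mul]
    simp only [N] at h3 ⊢
    linarith
  refine nv_le hK cH (add_mem (dv_mem_Car g) (Submodule.smul_mem _ _ (mx_mem_Car s))) r'.1 le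
    (h c g g0 (Or.inr (r'.1.trans le)) ?_)
  rw [← eg]
  exact nv_sum hK _ fun j _ => ⟨Submodule.smul_mem _ _ (CarZ.car (bz j)),
    nv_smul hK _ (CarZ.car (bz j)) (nv_indep hK hρ bz (e ▸ vH) j)⟩

end Vale.Agent.P287D.Tk.Lf
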