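import Vale.Agent.P287D.Tk.Lfa
import Vale.Agent.P287D.Gm.Unit

/-!
# P287D, row TRK: lifting a surface to a flag of a prime divisor which contains it
-/

set_option linter.unusedSectionVars false

open Set
open Vale.Agent.P297Z.Pl

noncomputable section

namespace Vale.Agent.P287D.Tk.Lf

variable {K : Type} [Field K] [Algebra ℂ K] {n : ℕ}

/-- a prime ideal of a subring is the centre of a valuation ring -/
theorem exists_ctr (B : Subring K) (q : Ideal B) [q.IsPrime] : ∃ V : ValuationSubring K,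
    (∀ a ∈ B, a ∈ V) ∧ ∀ a : B, a ∈ q ↔ (a : K) ∈ V.nonunits := by
  obtain ⟨V, hV⟩ := (LocalSubring.ofPrime B q).exists_le_valuationSubring
  have h1 : ∀ a ∈ B, a ∈ V := fun a w => hV.1 (LocalSubring.le_ofPrime B q w)
  refine ⟨V, h1, fun a => ?_⟩
  let a' : (LocalSubring.ofPrime B q).toSubring := algebraMap B _ a
  have h3 := IsLocalization.AtPrime.to_map_mem_maximal_iff (LocalSubring.ofPrime B q).toSubring q a
  have := hV.2
  refine h3.symm.trans (Iff.trans ?_ (V.coe_mem_nonunits_iff (a := ⟨a.1, h1 a a.2⟩)).symm)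
  rw [IsLocalRing.mem_maximalIdeal, IsLocalRing.mem_maximalIdeal, mem_nonunits_iff,
    mem_nonunits_iff]
  exact (isUnit_map_iff (Subring.inclusion hV.1) a').symm.not

theorem pick {A : Type} (hK : FF K n) {ψ : A → K} {S : Set A} (h : ∀ x, x ∈ Gm.Cl (ψ '' S)) :
    ∃ z : Fin n → A, (∀ i, z i ∈ S) ∧ AlgebraicIndependent ℂ fun i => ψ (z i) := by
  have : Algebra.IsAlgebraic (Algebra.adjoin ℂ (ψ '' S)) K := ⟨fun x => Gm.mem_Cl.1 (h x)⟩
  obtain ⟨t, t1, t2⟩ := exists_isTranscendenceBasis_subset (R := ℂ) (ψ '' S)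
  obtain ⟨e⟩ := Cardinal.mk_eq_nat_iff.1 (t2.cardinalMk_eq_trdeg.trans hK.trdeg)
  choose z z1 z2 using fun i : Fin n => t1 (e.symm i).2
  exact ⟨z, z1, (funext z2).symm ▸ t2.1.comp _ e.symm.injective⟩

/-- a prime ideal of codimension one is the centre of a divisorial place -/
theorem exists_div {k A : Type} [Field k] [Algebra ℂ k] [CommRing A] [Algebra ℂ A]
    (hK : FF K (n + 1)) (hk : FF k n) (α : A →ₐ[ℂ] K) (ψ : A →ₐ[ℂ] k)
    (h1 : ∀ a, α a = 0 → ψ a = 0) {S : Set A} (h2 : ∀ x, x ∈ Gm.Cl (α '' S))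
    (h3 : ∀ x, x ∈ Gm.Cl (ψ '' S)) : ∃ τ : Pl K, (∀ a, α a ∈ τ.ring) ∧
      (∀ a, τ.rd (α a) = 0 ↔ ψ a = 0) ∧ ∀ x, x ∈ Gm.Cl (τ.rd '' (α '' S)) := by
  have su := α.toRingHom.rangeRestrict_surjective
  have kr : RingHom.ker α.toRingHom.rangeRestrict ≤ RingHom.ker ψ := fun a e =>
    h1 a (congrArg Subtype.val e)
  have := RingHom.ker_isPrime ψ
  have := Ideal.map_isPrime_of_surjective su kr
  obtain ⟨V, v1, v2⟩ := exists_ctr _ ((RingHom.ker ψ).map α.toRingHom.rangeRestrict)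
  have v0 : ∀ a, α a ∈ V := fun a => v1 _ ⟨a, rfl⟩
  have v3 : ∀ a, α a ∈ V.nonunits ↔ ψ a = 0 := fun a => by
    refine (v2 (α.toRingHom.rangeRestrict a)).symm.trans ?_
    rw [← Ideal.mem_comap, Ideal.comap_map_of_surjective' _ su, sup_eq_left.2 kr, RingHom.mem_ker]
  have h4 : ∃ a, α a ≠ 0 ∧ ψ a = 0 := by
    by_contra! c
    obtain ⟨y, -, y2⟩ := pick hK h2
    have : AlgebraicIndependent ℂ fun i => ψ (y i) := algebraicIndependent_iff.2 fun p w => by
      rw [← MvPolynomial.comp_aeval_apply] at w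
      refine algebraicIndependent_iff.1 y2 p ?_
      rw [← MvPolynomial.comp_aeval_apply]
      exact by_contra fun u => c _ u w
    simpa [hk.trdeg] using this.cardinalMk_le_trdeg
  obtain ⟨z, z1, i1⟩ := pick hk h3
  have i2 : ∀ p, MvPolynomial.aeval (fun i => α (z i)) p ∈ V.nonunits → p = 0 := fun p w => by
    rw [← MvPolynomial.comp_aeval_apply, v3, MvPolynomial.comp_aeval_apply] at w
    exact algebraicIndependent_iff.1 i1 p w
  have i3 : AlgebraicIndependent ℂ fun i => α (z i) :=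
    algebraicIndependent_iff.2 fun p w => i2 p (w ▸ zero_mem _)
  have e1 : Algebra.trdeg (IntermediateField.adjoin ℂ (range fun i => α (z i))) K = 1 := by
    have := trdeg_add_eq ℂ (IntermediateField.adjoin ℂ (range fun i => α (z i))) (A := K)
    rw [(Gm.Un.ff_adjoin i3).trdeg, hK.trdeg, Nat.cast_add, Nat.cast_one] at this
    exact Cardinal.eq_of_add_eq_add_left this Cardinal.natCast_lt_aleph0
  have mA : ∀ p, MvPolynomial.aeval (fun i => α (z i)) p ∈ V := fun p => by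
    rw [← MvPolynomial.comp_aeval_apply]; exact v0 _
  have mI : ∀ p, (MvPolynomial.aeval (fun i => α (z i)) p)⁻¹ ∈ V := fun p => by_contra fun w =>
    w (by rw [i2 p (V.mem_nonunits_iff_or.2 (Or.inr w)), map_zero, inv_zero]; exact zero_mem _)
  have e2 : ∀ a ∈ IntermediateField.adjoin ℂ (range fun i => α (z i)), a ∈ V := fun a ha => by
    obtain ⟨p, q, rfl⟩ := (IntermediateField.mem_adjoin_range_iff _ _ _).1 ha
    exact div_eq_mul_inv (_ : K) _ ▸ mul_mem (mA p) (mI q)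
  obtain ⟨τ, rfl⟩ := On.exists_pl hK e1 V (fun w => by
    obtain ⟨a, a1, a2⟩ := h4
    exact (V.mem_nonunits_iff_or.1 ((v3 a).2 a2)).elim a1 fun u => u (w ▸ trivial)) e2
  refine ⟨τ, v0, fun a => ?_, fun x => ?_⟩
  · rw [Bm.rd_zero_iff τ (v0 a), ← On.nu_iff, v3]
  · refine mem_algebraicClosure_iff.2 ((On.hor_alg hK e1 e2 fun a ha => ?_).1 x)
    obtain ⟨p, q, rfl⟩ := (IntermediateField.mem_adjoin_range_iff _ _ _).1 ha
    have m : ∀ p : MvPolynomial (Fin n) ℂ, τ.rd (MvPolynomial.aeval (fun i => α (z i)) p) ∈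
        IntermediateField.adjoin ℂ (τ.rd '' (α '' S)) := fun p => by
      rw [Cb.rd_aeval fun i => v0 (z i)]
      refine IntermediateField.algebra_adjoin_le_adjoin _ _ (Algebra.adjoin_mono
        (s := range fun i => τ.rd (α (z i))) ?_ ?_)
      · rintro _ ⟨i, rfl⟩
        exact ⟨_, ⟨_, z1 i, rfl⟩, rfl⟩
      · rw [Algebra.adjoin_range_eq_range_aeval]; exact ⟨p, rfl⟩
    rw [On.rd_div τ (mA p) (mA q) (mI q)]
    exact div_mem (m p) (m q)

/-- the functions on the complement of an effective divisor -/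
def af {β : BD K} (h : 0 ≤ β) : Subalgebra ℂ K where
  carrier := {f | ∃ c : ℝ, Sec (c • β) f}
  mul_mem' := fun ⟨c, a⟩ ⟨c', a'⟩ => ⟨c + c', add_smul c c' β ▸ a.mul a'⟩
  add_mem' := fun ⟨c, a⟩ ⟨c', a'⟩ => ⟨max c c',
    (a.mono (smul_le_smul_of_nonneg_right (le_max_left _ _) h)).add
      (a'.mono (smul_le_smul_of_nonneg_right (le_max_right _ _) h))⟩
  algebraMap_mem' c := ⟨0, Or.inr (by rw [dv_const, zero_smul, add_zero])⟩

/-- the residue map on a subalgebra -/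
def rA (P : Pl K) (B : Subalgebra ℂ K) (h : ∀ f ∈ B, f ∈ P.ring) : B →ₐ[ℂ] P.κ where
  toFun f := P.rd f
  map_one' := Bm.rd_one P
  map_mul' f g := Bm.rd_mul P (h f f.2) (h g g.2)
  map_zero' := Gm.rd_zero
  map_add' f g := Bm.rd_add P (h f f.2) (h g g.2)
  commutes' := Bm.rd_const P

/-- the residue map of a flag on a subalgebra -/
def rF (P : Pl K) (Q : Pl P.κ) (B : Subalgebra ℂ K) (h : ∀ f ∈ B, f ∈ fv P Q) : B →ₐ[ℂ] Q.κ :=
  (rA Q (rA P B fun f w => (h f w).1).range fun _ ⟨f, e⟩ => e ▸ (h f f.2).2).comp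
    (rA P B fun f w => (h f w).1).rangeRestrict

theorem nv_sec {P : Pl K} {Q : Pl P.κ} {β : BD K} {f : K} (hK : FF K n) (hβ : β ∈ Car K)
    (a : Nv P Q β) (f0 : f ≠ 0) (h : Sec β f) : Nv P Q (dv f + β) ↔ Q.rd (P.rd f) ≠ 0 := by
  rw [← nv_dv hK f0 (sec_fv hK hβ a h)]
  refine ⟨fun e => ?_, fun e => nv_add hK (dv_mem_Car f) hβ e a⟩
  simpa using nv_add hK (add_mem (dv_mem_Car f) hβ) (Submodule.smul_mem _ (-1) hβ) e
    (nv_smul hK (-1) hβ a)

theorem on_flag {P : Pl K} {Q : Pl P.κ} {X : BD K} {s : Finset K} (hK : FF K (n + 2))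
    (a : AmpOn X (mx s)) (h1 : 1 ∈ s) (h2 : ∀ f ∈ s, f ∈ fv P Q) :
    On n (res P X) Q ↔ ∀ x, x ∈ Gm.Cl (Q.rd '' (P.rd '' s)) := by
  have b := fun f hf => (h2 f hf).1
  rw [← rs_eq h1 b]
  refine Gm.on_iff res' balg (Gm.ff_κ P hK) (res_mx hK P s ▸ res_ampOn hK P a) (one_rs h1 b)
    fun u hu => ?_
  rw [← Finset.mem_coe, rs_eq h1 b] at hu
  obtain ⟨g, hg, rfl⟩ := hu
  exact (h2 g hg).2

end Lf

open Lf in
/-- **LFT** -/
theorem lft : LFT := by
  intro n K _ _ hK X w E W σ hX bX oE oW ne hw oσ pos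
  have nn := fun β d h => (Api.neg.nn (n + 1) K hK X β hX bX d h).1
  have wE : w E = 0 := (hw.2 E oE).trans (Pl.δ_ne ne.symm)
  have key : ∀ G, Dsc X G → 0 ≤ G → Nv E σ G → G W = 0 := fun G d g0 v => by
    by_contra c
    have p : 0 < G W := (g0 W).lt_of_ne' c
    have w0 : 0 ≤ w := nn w hw.1 fun R hR => hw.2 R hR ▸ W.δ_nonneg R
    have le : 0 ≤ G - G W • w := nn _ (d.sub (hw.1.smul _)) fun R hR => by
      simp only [Pi.sub_apply, Pi.smul_apply, smul_eq_mul, hw.2 R hR]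
      by_cases e : R = W
      · rw [e, W.δ_self, mul_one, sub_self]
      · rw [Pl.δ_ne e, mul_zero, sub_zero]; exact g0 R
    have := (nv_le hK (Submodule.smul_mem _ _ hw.1.car) d.car (smul_nonneg p.le w0)
      (sub_nonneg.1 le) v).2
    rw [res_smul hK E _ hw.1.car] at this
    exact (mul_pos p pos).ne' this
  obtain ⟨s, a, s1, s2⟩ := Gm.exists_sys₀ hX (fv E σ)
  have s0 := mx_nonneg s1
  have v0 := nv_mx hK s1 s2
  have cs := fun c : ℝ => Submodule.smul_mem _ c (mx_mem_Car s)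
  have sW := key _ a.1 s0 v0
  have bE : ∀ f ∈ af s0, f ∈ fv E σ := fun f ⟨c, h⟩ =>
    sec_fv hK (cs c) (nv_smul hK c (mx_mem_Car s) v0) h
  have bW : ∀ f ∈ af s0, f ∈ W.ring := fun f ⟨c, h⟩ => by
    by_cases f0 : f = 0
    · exact f0 ▸ zero_mem _
    have := h.resolve_left f0 W
    simp only [Pi.zero_apply, Pi.add_apply, Pi.smul_apply, dv_apply, sW, smul_zero,
      add_zero] at this
    exact (ord_nonneg_iff _ f0).1 (by exact_mod_cast this)
  have sB : ∀ f ∈ s, f ∈ af s0 := fun f h => ⟨1, (one_smul ℝ (mx s)).symm ▸ sec_of_mem h⟩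
  have im : ∀ {T : Type} (ρ : K → T), (fun f : af s0 => ρ f) '' {f | (f : K) ∈ s} = ρ '' s :=
    fun ρ => by
      ext x
      exact ⟨fun ⟨f, h, e⟩ => ⟨f, h, e⟩, fun ⟨f, h, e⟩ => ⟨⟨f, sB f h⟩, h, e⟩⟩
  have kr : ∀ f, rA W _ bW f = 0 → rF E σ _ bE f = 0 := fun ⟨f, c, h⟩ e => by_contra fun u => by
    have f0 : f ≠ 0 := fun z => u (by subst z; exact map_zero (rF E σ _ bE))
    have := key _ ((Dsc.dv hX f).add (a.1.smul c)) (h.resolve_left f0)
      ((nv_sec hK (cs c) (nv_smul hK c (mx_mem_Car s) v0) f0 h).2 u)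
    simp only [Pi.add_apply, Pi.smul_apply, dv_apply, sW, smul_zero, add_zero] at this
    exact Loq.rd_ne f0 (Int.cast_eq_zero.1 this) e
  obtain ⟨τ, t1, t2, t3⟩ := exists_div (Gm.ff_κ W hK) (Gm.ff_κ σ (Gm.ff_κ E hK)) (rA W _ bW)
    (rF E σ _ bE) kr (S := {f | (f : K) ∈ s})
    (by
      have := (Gm.on_iff res' balg hK a s1 fun f h => bW f (sB f h)).1 oW
      rwa [← im] at this)
    (by
      have := (on_flag hK a s1 s2).1 oσ
      rwa [image_image, ← im] at this)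
  have bT : ∀ f ∈ af s0, f ∈ fv W τ := fun f h => ⟨bW f h, t1 ⟨f, h⟩⟩
  have v1 := nv_mx hK s1 fun f h => bT f (sB f h)
  have k : ∀ (c : ℝ) (f : K), f ≠ 0 → Sec (c • mx s) f →
      (Nv E σ (dv f + c • mx s) ↔ Nv W τ (dv f + c • mx s)) := fun c f f0 h => by
    rw [nv_sec hK (cs c) (nv_smul hK c (mx_mem_Car s) v0) f0 h,
      nv_sec hK (cs c) (nv_smul hK c (mx_mem_Car s) v1) f0 h]
    exact (t2 ⟨f, c, h⟩).symm.not
  refine ⟨τ, (on_flag hK a s1 fun f h => bT f (sB f h)).2 ?_, fun G r =>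
    ⟨sec hK bX a (fun c f f0 h => (k c f f0 h).1) r,
      sec hK bX a (fun c f f0 h => (k c f f0 h).2) r⟩⟩
  rw [← im W.rd]
  exact t3

end Vale.Agent.P287D.Tk
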