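import Vale.Agent.P287D.Tk.St
import Vale.Agent.P287D.Ad.All

/-!
# P287D, row TRK: lifting of sections from a plt prime, the start
-/

set_option linter.all false

open Set
open Vale.Agent.P297Z.Pl

noncomputable section

namespace Vale.Agent.P287D.Tk

open Loq

variable {K : Type} [Field K] [Algebra ℂ K] {n : ℕ} {X Λ Γ β : BD K} {c : ℝ} {P : Pl K}
  {Q : Pl P.κ} {s : Finset K}

theorem exists_nv (hK : FF K (n + 1)) (h : Smp β) (P : Pl K) (Q : Pl P.κ) :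
    ∃ G, Rep β G ∧ Nv P Q G := by
  obtain ⟨R, -, -, -, a, -⟩ := a2 n K hK P Q ∅ β 0 finite_empty (empty_subset _) h.car
  obtain ⟨G, r, b⟩ := h.exists_rep (T := {P, R}) (by simp)
  have p := b P (by simp)
  refine ⟨G, r, p, le_antisymm (not_lt.1 fun k => ?_) (res'.nn n K hK P G (r.car h.car) r.1 p Q)⟩
  exact ((a G r p).2 k).ne' (b R (by simp))

/-- the local ring of the prime lifts -/
theorem lift_lq (hK : FF K (n + 1)) (hb : Big X) (hd : Dsc X Λ) (hΛ : Smp Λ) (hy : Bdy n X Γ)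
    (hn : Nef (c • Λ - Γ)) (hg : Big (c • Λ - Γ)) (hP : dsc (n + 1) Γ P = -1)
    (hk : Klt n (adj n P Γ)) (hs : Nz s) (hA : AmpOn Λ (mx s)) {h : P.κ}
    (hh : h ∈ lq (mx (P.rs s)) Q) : ∃ f, Lr Λ P Q f ∧ P.rd f = h := by
  obtain ⟨ε, e0, h1⟩ := hA.dsc.exists_sub
  obtain ⟨c₀, c0, h2⟩ := (hA.dsc'.smul (-c)).exists_add
  obtain ⟨m₀, hm₀⟩ := exists_nat_ge c₀
  obtain ⟨G', r', p', q'⟩ := exists_nv hK h1 P Q
  obtain ⟨m₁, w₁, u₁, k₁⟩ := hh
  obtain ⟨g, hg', g0, e⟩ := Q.exists_mz (Ae.nz_rs (P := P) hs)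
  have v := (un_of hg' g0 e).pow m₀
  have u := v.mul u₁
  have k : Sec (((m₀ + m₁ : ℕ) : ℝ) • mx (P.rs s)) (g ^ m₀ * w₁ * h) := by
    rw [mul_assoc]; exact sec_mul v.2.1 k₁
  have hm : c₀ ≤ ((m₀ + m₁ : ℕ) : ℝ) := hm₀.trans (Nat.cast_le.2 (Nat.le_add_right _ _))
  generalize m₀ + m₁ = m at u k hm
  generalize g ^ m₀ * w₁ = w at u k
  have m0 : (0 : ℝ) < m := c0.trans_le hm
  have hΓ := Ae.car_of_nef hΛ hn
  have cm := Submodule.smul_mem _ (m : ℝ) (mx_mem_Car s)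
  have rm : res P ((m : ℝ) • mx s) = (m : ℝ) • mx (P.rs s) := by
    rw [res'.smul n K hK P _ _ (mx_mem_Car s), res'.sys n K hK]
  have dL : (m : ℝ) • mx s - Γ = c • Λ - Γ + (-c • Λ + (m : ℝ) • mx s) := by module
  have L : ∀ a : P.κ, a ≠ 0 → Sec ((m : ℝ) • mx (P.rs s)) a → ∃ f : K, f ≠ 0 ∧
      0 ≤ dv f + (m : ℝ) • mx s ∧ P.ord f = -(m * P.mz s) ∧
      P.rd (f * P.t ^ ((m : ℤ) * P.mz s)) = a := fun a a0 ha => by
    obtain ⟨f, f0, f1, f2, f3, -⟩ := Ae.lift (β := 0) (k := m * P.mz s) adh hK hd.smp hb hΓ hP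
      (.zero hd.smp) le_rfl (fun R o _ => Int.cast_nonpos.2 (Int.ceil_le.2 (by simpa using hy R o)))
      (CarZ.nsmul (mx_mem_CarZ s) m) ((hd.trans hA.dsc).smul m) (by simp [mx_apply])
      (dL ▸ hn.add (h2 m hm).nef) (dL ▸ hg.add_smp (h2 m hm)) a0 (by
        rw [rm]
        refine ha.mono (le_add_of_nonneg_right fun R => ?_)
        have := Int.lt_ceil.2 (show ((-1 : ℤ) : ℝ) < _ by exact_mod_cast hk R)
        exact Int.cast_nonneg_iff.2 (by omega))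
    exact ⟨f, f0, by simpa using f1, f2, f3⟩
  obtain ⟨W, W0, W1, W2, W3⟩ := L w u.1 u.2.1
  have cW := add_mem (dv_mem_Car W) cm
  have rG : Rep Λ (G' + (ε / m) • (dv W + (m : ℝ) • mx s)) := by
    have := r'.add ((Sec.rep (.inr W1) W0).smul (div_pos e0 m0).le)
    rwa [smul_smul, div_mul_cancel₀ _ m0.ne', sub_add_cancel] at this
  have nG : Nv P Q (G' + (ε / m) • (dv W + (m : ℝ) • mx s)) := by
    constructor
    · simp [p', dv_apply, W2, mx_apply]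
    · rw [res'.add n K hK P _ (r'.car h1.car) _ (Submodule.smul_mem _ _ cW),
        res'.smul n K hK P _ _ cW, res'.add n K hK P _ (dv_mem_Car W) _ cm, rm,
        Ae.res_dv res' hK W0 W2, W3]
      have := u.2.2
      simp only [Pi.add_apply, Pi.smul_apply, smul_eq_mul, dv_apply, q', this, mul_zero, add_zero]
  by_cases h0 : h = 0
  · exact ⟨0, ⟨_, 1, rG, nG, one_pos, .zero _⟩, h0 ▸ Ae.rd_zero P⟩
  obtain ⟨V, V0, V1, V2, V3⟩ := L (w * h) (mul_ne_zero u.1 h0) k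
  have o : P.ord (V / W) = 0 := by rw [ord_div _ V0 W0, V2, W2, sub_self]
  have mV : V / W ∈ P.ring := (ord_nonneg_iff _ (div_ne_zero V0 W0)).1 o.ge
  have t0 : W * P.t ^ ((m : ℤ) * P.mz s) ≠ 0 := mul_ne_zero W0 (zpow_ne_zero _ P.t_ne)
  have mW : W * P.t ^ ((m : ℤ) * P.mz s) ∈ P.ring :=
    (ord_nonneg_iff _ t0).1 (by rw [P.ord_mul_t W0, W2, neg_add_cancel])
  refine ⟨V / W, ⟨_, m / ε, rG, nG, div_pos m0 e0, .inr fun R => ?_⟩, mul_left_cancel₀ u.1 ?_⟩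
  · have a := V1 R
    have b := mul_nonneg (div_pos m0 e0).le (r'.1 R)
    rw [smul_add, smul_smul, div_mul_div_cancel₀ e0.ne', div_self m0.ne', one_smul, dv_div V0 W0]
    simp only [Pi.add_apply, Pi.sub_apply, Pi.smul_apply, smul_eq_mul, Pi.zero_apply] at a b ⊢
    linarith
  · rw [← V3, ← W3, ← rd_mul' mW mV]
    congr 1
    field_simp

theorem rts_le {L : Type} [Field L] [Algebra ℂ L] {s : Finset L} {Q : Pl L} (hs : Nz s)
    (h : Hor (rts s) Q) {a : L} (ha : a ∈ rts s) : a ∈ lq (mx s) Q := by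
  obtain ⟨g, hg, g0, e⟩ := Q.exists_mz hs
  have i : ∀ a ∈ rts s, a ∈ lq (mx s) Q → a⁻¹ ∈ lq (mx s) Q := fun a ha k => by
    by_cases a0 : a = 0
    · rw [a0, inv_zero]; exact zero_mem _
    · exact inv_mem k a0 (h.ord ha)
  refine IntermediateField.adjoin_induction ℂ (p := fun a _ => a ∈ lq (mx s) Q) ?_
    (fun c => Subalgebra.algebraMap_mem _ c) (fun _ _ _ _ => add_mem) (fun a ha => i a ha)
    (fun _ _ _ _ => mul_mem) ha
  rintro _ ⟨a, ha, b, hb, rfl⟩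
  rw [← div_div_div_cancel_right₀ g0, div_eq_mul_inv (a / g)]
  exact mul_mem (ratio_mem ha hg g0 e) (i _ (div_mem_rts hb hg) (ratio_mem hb hg g0 e))

theorem fld_lq {L : Type} [Field L] [Algebra ℂ L] (hL : FF L n) {s : Finset L} {Q : Pl L}
    (hs : Nz s) (h : Hor (fld (mx s)) Q) {a : L} (ha : a ∈ fld (mx s)) : a ∈ lq (mx s) Q := by
  have r : ∀ b ∈ rts s, b ∈ fld (mx s) := fun b hb =>
    (mem_fld_mx hL).2 (isAlgebraic_algebraMap (⟨b, hb⟩ : rts s))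
  obtain ⟨p, p0, hp⟩ := (mem_fld_mx hL).1 ha
  refine horner (p.map (algebraMap (rts s) L)) (fun i => ?_) (h a ha)
    (by rwa [Polynomial.eval_map_algebraMap]) ⟨p.natDegree, ?_⟩
  · rw [Polynomial.coeff_map]
    exact rts_le hs (fun b hb => h b (r b hb)) (p.coeff i).2
  · rw [Polynomial.coeff_map]
    exact ⟨fun e => Polynomial.leadingCoeff_ne_zero.2 p0 (Subtype.ext e),
      h.ord (r _ (p.coeff _).2)⟩

theorem ont : ONT := fun n K _ _ hK X Λ Γ c P Q hb hd hΛ hy hn hg hP hk => by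
  obtain ⟨s, s1, hA⟩ := hΛ.exists_ampOn
  have hs : Nz s := ⟨1, s1, one_ne_zero⟩
  have hκ := Api.ffs.rsd _ K hK P
  have d1 := res'.des _ K hK _ _ P hA.dsc
  have d2 := res'.des _ K hK _ _ P hA.dsc'
  rw [res'.sys _ K hK] at d1 d2
  have k : ∀ h ∈ lq (mx (P.rs s)) Q, ∃ f, Lr Λ P Q f ∧ Q.rd (P.rd f) = Q.rd h := fun h hh =>
    let ⟨f, a, b⟩ := lift_lq hK hb hd hΛ hy hn hg hP hk hs hA hh
    ⟨f, a, by rw [b]⟩
  refine ⟨fun b o u => ?_, fun b o u => ?_⟩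
  · obtain ⟨h, hh, rfl⟩ := Bm.rd_surj Q u
    obtain ⟨ε, e0, e⟩ := d2.exists_sub
    exact k h (lo_of balg Api.ffs res' hκ (Ae.nz_rs hs) d1.smp b e0 e o h hh)
  · obtain ⟨h, hh, rfl⟩ : u ∈ Q.rd '' (fld (res P Λ) : Set P.κ) := o ▸ mem_univ u
    exact k h (fld_lq hκ (Ae.nz_rs hs) (fun a ha => b a (d1.fld_le ha)) (d2.fld_le hh))

theorem on_of_pg (hK : FF K (n + 1)) (hb : Big X) (hd : Dsc X Γ) (hy : Bdy n X Γ)
    (hk : -1 < dsc (n + 1) Γ P) (p : pg P.κ n ≠ 0) : On n X P := by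
  by_contra o
  refine p ?_
  have z : H0 (cn P.κ n) = ⊥ := eq_bot_iff.2 fun w hw => by
    refine uni' n K hK X Γ 0 P hd.smp hb hd hy o hk (zero_mem _) (.zero hd.smp) w ?_
    rw [Ae.res_zero res' hK, add_zero]
    exact mem_H0.1 hw
  rw [pg, h0, z, finrank_bot]

theorem sta : STA := fun K _ _ hK Y G b E t q o hb σ p X k e bX dY hk he kl => by
  have hX := dY.smp
  have oX : On 3 X E := Pr.on_mono res' hK t.smp hX dY o
  have d : Dsc X (k + e) := hk.1.add he.1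
  have v : ∀ P, On 3 X P → dsc 4 (k + e) P = -E.δ P := fun P h => by
    simp [dsc, hk.2 P h, he.2 P h]
  have y : Bdy 3 X (k + e) := fun P h => by
    rw [v P h, Pl.δ]
    split_ifs <;> simp
  have m : dsc 4 (k + e) E = -1 := by simp [v E oX, Pl.δ]
  obtain ⟨c₀, c0, h⟩ := d.neg.exists_add
  have z : (c₀ + 1) • X - (k + e) = X + (-(k + e) + c₀ • X) := by module
  have bE := (res'.on 3 K hK X E hX).1 oX
  refine (ont 2 K hK X X (k + e) (c₀ + 1) E σ bX (.refl hX) hX y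
    (z ▸ (hX.add (h c₀ le_rfl)).nef) (z ▸ bX.add_smp (h c₀ le_rfl)) m kl).1 bE ?_
  exact on_of_pg (Api.ffs.rsd 3 K hK E) bE
    ((res'.des 3 K hK _ _ E d).congr (a1 3 K hK E _ d.car).2.1)
    (a3 2 K hK X E hX bX oX _ d y m) (kl σ) p

end Vale.Agent.P287D.Tk
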