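import Vale.Agent.P287D.Sg.Cbn
import Vale.Agent.P287D.Lc.Pg
import Vale.Agent.P287D.Oe.Red
import Vale.Agent.P287D.Va.Nd
import Vale.Agent.P287D.Ad.All

/-!
# P287D, row TRK: the threefold half of a wall
-/

open Set

noncomputable section

namespace Vale.Agent.P287D.Tk

variable {W : Type} [Field W] [Algebra ℂ W] (hW : FF W 3) {X Γ M : BD W} {τ Q : Pl W}
include hW

theorem cab (a : Smp X) (b : Big X) (d : Dsc X Γ) (e : Bdy 2 X Γ) (o : On 2 X τ)
    (k : -1 ≤ dsc 3 Γ τ) (s : Smp M) (dM : Dsc X M) (m : AmpOn X (M - Γ)) (p : pg τ.κ 2 ≠ 0)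
    (n : ¬ On 2 M τ) : dim M ≤ 1 := by
  by_contra c
  refine n ((res'.on 2 W hW M τ s).2 ?_)
  by_cases h : Hor (fld M) τ
  · obtain ⟨M₀, s₀, b₀, q⟩ := fld_down hW s
    have f := ff_fld hW M
    have hτ := Gm.ff_κ τ hW
    have l := trdeg_le_of_injective (On.rE τ _ h) (On.rE τ _ h).injective
    rw [f.trdeg, hτ.trdeg] at l
    rw [show dim M = 2 from le_antisymm (by exact_mod_cast l) (by omega)] at f
    exact (res'.on 2 W hW M τ s).1 (Sg.on_hor hW f s₀ b₀ s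
      ((Dsc.refl ((hW.ok_sub _).smp s₀)).congr_left q) h)
  obtain ⟨G, r, z⟩ := Oe.vert s.eff h
  set x := (dsc 3 Γ τ + 1) / G τ with hx
  have x0 : 0 ≤ x := div_nonneg (by linarith) z.le
  have dG := dM.congr r.2
  have y := (Sg.nu_of_pg p).big_res a3 (Γ := Γ + x • G) (M := M + x • G) hW a b o
    (d.add (dG.smul x)) (fun P hP => by
      have := e P hP
      have := mul_nonneg x0 (r.1 P)
      simp only [dsc, Pi.add_apply, Pi.sub_apply, Pi.smul_apply, smul_eq_mul] at *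
      linarith) (by
      have := div_mul_cancel₀ (dsc 3 Γ τ + 1) z.ne'
      simp only [dsc, Pi.add_apply, Pi.sub_apply, Pi.smul_apply, smul_eq_mul] at *
      rw [hx]
      linarith) (by simpa using m)
  exact (res_dsc hW τ ((Dsc.refl s).add (((Dsc.refl s).congr r.2).smul x))).big y

theorem hor_on (s : Smp M) (nb : ¬ Big M) (o : On 2 M τ) : Hor (fld M) τ ∧ dim M = 2 := by
  have h : Hor (fld M) τ := by_contra fun c =>
    let ⟨_, r, z⟩ := Oe.vert s.eff c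
    Oe.not_on hW s.nef nb r z o
  refine ⟨h, ?_⟩
  have a := dim_le hW M
  have b := mt (big_iff_dim hW s.eff).2 nb
  by_contra c
  have p : 0 < pld τ.t⁻¹ τ := pld_pos.2 fun m => by
    have := P297Z.Pl.ord_nonneg_of_mem _ m
    rw [P297Z.Pl.ord_inv, τ.ord_t] at this
    omega
  exact ((mul_pos p o).trans_le (term_le_I hW (Sg.isB_car hW (pld_car _)) (pld_nonneg _)
    (b := fun _ => M) (fun _ => s.nef) τ)).ne' (I_eq_zero_of_dsc (Λ := M) hW
      (Fin.cases (pld_car _) fun _ => s.car) {1, 2} (by simp; omega) fun i hi => by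
        fin_cases i
        exacts [by simp at hi, .refl s, .refl s])

theorem deg1 (dgr : DGR) (con : CON) (a : Smp X) (s : Smp M) (dM : Dsc X M) (nb : ¬ Big M)
    (e : Bdy 2 X Γ) (sA : Smp (M - Γ)) (o : On 2 M τ) (o1 : On 2 M Q) (ne : Q ≠ τ)
    (h1 : dsc 3 Γ τ < -1 / 2) (h2 : dsc 3 Γ Q ≤ -1) : τ.rd '' (fld M : Set W) = univ := by
  classical
  obtain ⟨h, e2⟩ := hor_on hW s nb o
  have h' := (hor_on hW s nb o1).1
  obtain ⟨M₀, s₀, b₀, q⟩ := fld_down hW s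
  have f : FF (fld M) 2 := e2 ▸ ff_fld hW M
  obtain ⟨G, r⟩ := sA.eff
  have le : ∀ P, dsc 3 (Γ + G) P ≤ dsc 3 Γ P := fun P => by
    have := r.1 P
    simp only [dsc, Pi.add_apply, Pi.sub_apply, Pi.zero_apply] at *
    linarith
  have p : Γ + G - pb (inc (fld M)) M₀ ∈ Prn W := by
    have := add_mem r.2 q
    rwa [show G - (M - Γ) + (M - pb (inc (fld M)) M₀) = Γ + G - pb (inc (fld M)) M₀ by abel] at this
  have u : ∀ P, Hor (fld M) P → dsc 3 (Γ + G) P ≤ 0 := fun P hP => (le P).trans (e P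
    (Sg.on_hor hW f s₀ b₀ a (dM.trans ((Dsc.refl ((hW.ok_sub _).smp s₀)).congr_left q)) hP))
  have k := (dgr 2 W _ _ _ hW f (cld_fld M) (con 2 W _ _ _ hW f (cld_fld M) p u
    ⟨τ, h, by linarith [le τ]⟩) p u).2 {Q, τ} (by simp [h, h'])
  rw [Finset.sum_pair ne] at k
  have d1 : (1 : ℝ) ≤ Module.finrank (Q.im (fld M)) Q.κ := by
    exact_mod_cast Lc.one_le_deg h' f (Gm.ff_κ Q hW)
  have d2 := Lc.one_le_deg h f (Gm.ff_κ τ hW)
  have d3 : Module.finrank (τ.im (fld M)) τ.κ = 1 := by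
    by_contra c
    have : (2 : ℝ) ≤ Module.finrank (τ.im (fld M)) τ.κ := by exact_mod_cast (by omega)
    have := le τ
    have := le Q
    nlinarith
  refine eq_univ_of_forall fun x => ?_
  have m : x ∈ (⊥ : Subalgebra (τ.im (fld M)) τ.κ) := by
    rw [Subalgebra.bot_eq_top_of_finrank_eq_one d3]
    trivial
  obtain ⟨y, rfl⟩ := m
  obtain ⟨w, hw⟩ := (Lc.im_eq h).le y.2
  exact ⟨w, w.2, (Lc.rh_apply h w).symm.trans hw⟩

theorem exq (s : Smp M) (nb : ¬ Big M) (o : On 2 M τ) {ι : Type} (T : Finset ι) (g : ι → BD W)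
    (hg : ∀ i ∈ T, g i ∈ Car W) (e : BD W) (he : e ∈ Car W) (e0 : 0 ≤ e) (e1 : 0 < e τ)
    (y c : ι → ℝ) (d1 : Dsc M (e + ∑ i ∈ T, c i • g i)) (d2 : Dsc M (∑ i ∈ T, y i • g i))
    {j : ι} (hj : j ∈ T) (yj : y j ≠ 0) : ∃ l ∈ T, l ≠ j ∧ ∃ Q, On 2 M Q ∧ g l Q ≠ 0 := by
  by_contra n
  push Not at n
  let φ : Car W →ₗ[ℝ] ℝ :=
    { toFun := fun β => I 3 W (Fin.cons β fun _ : Fin 2 => M)
      map_add' := fun β γ => In.hy.cons_add hW (Sg.isB_car hW β.2) (Sg.isB_car hW γ.2)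
        fun _ => s.car
      map_smul' := fun c β => In.cons_smul c _ _ }
  have z : ∀ β : Car W, Dsc M β → φ β = 0 := fun β d =>
    I_eq_zero_of_dsc (Λ := M) hW (Fin.cases β.2 fun _ => s.car) Finset.univ
      (by rw [(hor_on hW s nb o).2]; simp) (Fin.cases (fun _ => d) fun _ _ => .refl s)
  have w : ∀ x : ι → ℝ, ∀ m, φ ⟨∑ i ∈ T, x i • g i, m⟩ = x j * φ ⟨g j, hg j hj⟩ := fun x m => by
    have : (⟨_, m⟩ : Car W) = ∑ i ∈ T.attach, x i • ⟨g i, hg i i.2⟩ := Subtype.ext (by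
      simp [Finset.sum_attach T fun i => x i • g i])
    rw [this, map_sum, Finset.sum_eq_single ⟨j, hj⟩, map_smul, smul_eq_mul]
    · intro l _ hl
      rw [map_smul, show φ ⟨g l, hg l l.2⟩ = 0 from finsum_eq_zero_of_forall_eq_zero fun P => ?_,
        smul_zero]
      change g l P * In.cf P (fun _ : Fin 2 => M) = 0
      by_cases oP : On 2 M P
      · rw [n l l.2 (fun e => hl (Subtype.ext e)) P oP, zero_mul]
      · rw [In.hy.exc hW oP s fun _ => .refl s, mul_zero]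
    · simp
  have a := z ⟨_, d2.car⟩ d2
  have m := sum_mem fun i hi => (Car W).smul_mem (c i) (hg i hi)
  have b := z (⟨e, he⟩ + ⟨_, m⟩) d1
  rw [w] at a
  rw [map_add, w, (mul_eq_zero.1 a).resolve_left yj, mul_zero, add_zero] at b
  exact ((mul_pos e1 o).trans_le (term_le_I hW (Sg.isB_car hW he) e0 (b := fun _ => M)
    (fun _ => s.nef) τ)).ne' b

end Vale.Agent.P287D.Tk
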