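import Vale.Agent.P287D.Tk.Flag
import Vale.Agent.P287D.Va.Alg
import Vale.Agent.P287D.Ea.Cd

/-!
# P287D, row TRK: the dimension of the centre of a flag depends only on the centre
-/

open Set

noncomputable section

namespace Vale.Agent.P287D.Tk

variable {K : Type} [Field K] [Algebra ℂ K] {n : ℕ} {Λ : BD K} {P P' : Pl K}
  {Q : Pl P.κ} {Q' : Pl P'.κ}

/-- affine coordinates at the centre of a flag -/
theorem flag_sys (hK : FF K (n + 1)) (hΛ : Smp Λ) (P : Pl K) (Q : Pl P.κ) :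
    ∃ u : Finset K, 1 ∈ u ∧ AmpOn Λ (mx u) ∧ Nv P Q (mx u) := by
  classical
  obtain ⟨s, s1, a⟩ := hΛ.exists_ampOn
  have hs : Nz s := ⟨1, s1, one_ne_zero⟩
  obtain ⟨R, -, c⟩ := Ea.exists_fc hK P Q (mx_mem_Car s) finite_empty (empty_subset _)
  obtain ⟨f, f1, f0, e⟩ := R.exists_mz hs
  have r := (sec_of_mem f1).rep f0
  have z : (dv f + mx s) R = 0 := by simp [dv_apply, mx_apply, e]
  have zP : (dv f + mx s) P = 0 := le_antisymm (not_lt.1 fun p => (c.cle _ r p).ne' z) (r.1 P)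
  have e' : mx (s.image (· * f⁻¹)) = dv f + mx s := by
    rw [mx_image_mul hs (inv_ne_zero f0), dv_inv, sub_neg_eq_add, add_comm]
  exact ⟨s.image (· * f⁻¹), Finset.mem_image.2 ⟨f, f1, mul_inv_cancel₀ f0⟩, e' ▸ a.congr r.2,
    e' ▸ ⟨zP, le_antisymm (not_lt.1 fun p => ((c.cmp _ r zP).2 p).ne' z)
      (res_nonneg hK P (r.car (mx_mem_Car s)) r.1 zP Q)⟩⟩

/-- the residues of the local ring have the dimension of the centre -/
theorem trdeg_ev (hK : FF K (n + 2)) (hΛ : Smp Λ) (P : Pl K) (Q : Pl P.κ) :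
    Algebra.trdeg ℂ (ev hK hΛ P Q (loc hK hΛ P Q) fun _ => id).range = cd (res P Λ) Q := by
  have hP := Bm.ff_κ hK P
  have hQ := Bm.ff_κ hP Q
  obtain ⟨u, u1, a, v⟩ := flag_sys hK hΛ P Q
  set φ := ev hK hΛ P Q (loc hK hΛ P Q) fun _ => id
  have l : φ.range ≤ (fld (res Q (res P Λ))).toSubalgebra := fun _ ⟨f, e⟩ =>
    e ▸ Lr.fld hK f.2 hΛ
  let L : IntermediateField ℂ Q.κ := φ.range.toIntermediateField fun _ ⟨f, e⟩ => by
    subst e
    by_cases k : Q.rd (P.rd f) = 0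
    · exact ⟨0, by rw [show φ.toRingHom f = 0 from k, inv_zero, map_zero]⟩
    · refine ⟨⟨_, Lr.inv hK hΛ f.2 k⟩, eq_inv_of_mul_eq_one_left ?_⟩
      rw [← map_mul, ← map_one φ.toRingHom]
      exact congrArg _ (Subtype.ext (inv_mul_cancel₀ fun z => k (by
        rw [z, Ae.rd_zero, Ae.rd_zero])))
  have z : P.mz u = 0 := by exact_mod_cast (mx_apply u P).symm.trans v.1
  have z' : Q.mz (P.rs u) = 0 := by
    exact_mod_cast (mx_apply _ Q).symm.trans (res_mx hK P u ▸ v.2)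
  have m : ∀ x ∈ Q.rs (P.rs u), x ∈ L := fun x hx => by
    simp only [Pl.rs, z, Finset.mem_image, zpow_zero, mul_one] at z' hx
    simp only [z', zpow_zero, mul_one] at hx
    obtain ⟨_, ⟨f, hf, rfl⟩, rfl⟩ := hx
    exact ⟨⟨f, lr_of hK a.1 (mx_nonneg u1) v (sec_of_mem hf)⟩, rfl⟩
  have l' : (rts (Q.rs (P.rs u))).toSubalgebra ≤ φ.range :=
    (rts_le_iff (L := L)).2 fun x hx y hy => div_mem (m x hx) (m y hy)
  refine le_antisymm ((trdeg_le_of_injective _ (Subalgebra.inclusion_injective l)).trans_eq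
    (trdeg_fld hQ _)) (Eq.trans_le ?_ (trdeg_le_of_injective _ (Subalgebra.inclusion_injective l')))
  refine Eq.trans ?_ (dim_mx hQ _).symm
  rw [cd, dim, dim, ← (res_ampOn hP Q (res_ampOn hK P a)).fld_eq, res_mx hK, res_mx hP]

theorem Sm.cd_eq (h : Sm Λ P Q P' Q') (hK : FF K (n + 2)) (hΛ : Smp Λ) :
    cd (res P Λ) Q = cd (res P' Λ) Q' := by
  let φ := ev hK hΛ P Q (loc hK hΛ P Q) fun _ => id
  let φ' := ev hK hΛ P' Q' (loc hK hΛ P' Q') fun _ => id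
  let ψ := ev hK hΛ P' Q' (loc hK hΛ P Q) fun _ => h.lr
  have e : RingHom.ker φ = RingHom.ker ψ :=
    Ideal.ext fun f => ⟨h.ker hK hΛ f.2, h.symm.ker hK hΛ (h.lr f.2)⟩
  have e' : ψ.range = φ'.range := Subalgebra.ext fun _ =>
    ⟨fun ⟨f, k⟩ => ⟨⟨f, h.lr f.2⟩, k⟩, fun ⟨f, k⟩ => ⟨⟨f, h.symm.lr f.2⟩, k⟩⟩
  have t : Algebra.trdeg ℂ φ.range = Algebra.trdeg ℂ ψ.range :=
    ((Ideal.quotientKerEquivRange φ).symm.trans ((Ideal.quotientEquivAlgOfEq ℂ e).trans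
      (Ideal.quotientKerEquivRange ψ))).trdeg_eq
  rw [e', trdeg_ev, trdeg_ev] at t
  exact_mod_cast t

theorem on_cd_iff (hK : FF K (n + 1)) (hΛ : Smp Λ) : On n Λ P ↔ cd Λ P = n :=
  (on_iff_big hK P hΛ.nef).trans (big_iff_dim (Bm.ff_κ hK P) (res_smp hK P hΛ).eff)

theorem trf : TRF := fun _ _ _ _ hK _ P P' _ _ hΛ h o =>
  (on_cd_iff (Bm.ff_κ hK P') (res_smp hK P' hΛ)).2 ((h.cd_eq hK hΛ).symm.trans
    ((on_cd_iff (Bm.ff_κ hK P) (res_smp hK P hΛ)).1 o))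

end Vale.Agent.P287D.Tk
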