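import Vale.Agent.P287D.Tk.Cof
import Vale.Agent.P287D.Tk.Thr
import Vale.Agent.P287D.Tk.Ont
import Vale.Agent.P287D.Tk.Lft
import Vale.Agent.P287D.Tk.Trf
import Vale.Agent.P287D.Tj.Set
import Vale.Agent.P287D.Ru.Dgr
import Vale.Agent.P287D.Api.Int
import Vale.Agent.P287D.Mm.Run

/-!
# P287D, row TRK: one wall, the row
-/

set_option linter.unusedVariables false

open Set

noncomputable section

namespace Vale.Agent.P287D.Tk

variable {K : Type} [Field K] [Algebra ℂ K] {Y G b Λ k B A H Γ Γ' D D' : BD K} {E P j : Pl K}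
  {T : Finset (Pl K)} {h : Pl K → BD K} {u ε v : ℝ} {y : Pl K → ℝ} {n : ℕ}

/-- an effective Cartier b-divisor which does not contain `P` -/
structure Pz (P : Pl K) (D : BD K) : Prop where
  car : D ∈ Car K
  nn : 0 ≤ D
  z : D P = 0

theorem Pz.add (a : Pz P D) (a' : Pz P D') : Pz P (D + D') :=
  ⟨add_mem a.car a'.car, add_nonneg a.nn a'.nn, by rw [Pi.add_apply, a.z, a'.z, add_zero]⟩

theorem Pz.smul (a : Pz P D) (e : 0 ≤ v) : Pz P (v • D) :=
  ⟨Submodule.smul_mem _ _ a.car, smul_nonneg e a.nn, by rw [Pi.smul_apply, a.z, smul_zero]⟩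

theorem Pz.le (a : Pz P D) (hK : FF K (n + 1)) (g : Γ ∈ Car K) (e : Γ' = Γ + D) (Q : Pl P.κ) :
    dsc n (adj n P Γ') Q ≤ dsc n (adj n P Γ) Q := by
  rw [e, (a4 n K hK P Γ g D a.car).1, Pr.dsc_add]
  exact sub_le_self _ (res_nonneg hK P a.car a.nn a.z Q)

namespace Cx

variable (c : Cx Y G b E T Λ k B A H h u ε y) (hj : j ∈ T) (oj : On 3 (Λ + ε • h E) j)
include c hj oj

theorem zE : Pz j (h E) := ⟨c.he.1.car, c.e0', c.eT hj oj⟩

omit hj in
theorem zB : Pz j B := ⟨c.bc, c.b0, c.bz j oj⟩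

omit hj in
theorem zS {S : Finset (Pl K)} (e : S ⊆ T) (a : j ∉ S) : Pz j (∑ R ∈ S, h R) := by
  have := c.sum_out (fun _ => 1) e a oj
  simp only [one_smul] at this
  exact ⟨sum_mem fun R hR => (c.hh R (e hR)).1.car, Finset.sum_nonneg fun R hR => c.h0 (e hR), this⟩

theorem bd1 (a : Pz j D) : k + h j + D ∈ Car K ∧ Bdy 3 (Λ + ε • h E) (k + h j + D) ∧
    dsc 4 (k + h j + D) j = -1 := by
  refine ⟨add_mem (add_mem c.kh.1.car (c.hh j hj).1.car) a.car, fun R o => ?_, ?_⟩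
  · have := c.h0 hj R
    have := a.nn R
    simp only [dsc, Pi.sub_apply, Pi.add_apply, Pi.zero_apply, c.kh.2 R o] at *
    linarith
  · simp [dsc, c.kh.2 j oj, (c.hh j hj).2 j oj, Pl.δ_self, a.z]

theorem bd2 (a : Pz j D) : Bdy 2 (res j (Λ + ε • h E)) (adj 3 j (k + h j + D)) := fun Q o => by
  have z := c.bd1 hj oj (D := 0) ⟨zero_mem _, le_rfl, rfl⟩
  rw [add_zero] at z
  exact (a.le c.hK z.1 rfl Q).trans
    (a3 2 K c.hK _ j c.smpX c.bigX oj _ (c.kh.1.add (c.hh j hj).1) z.2.1 z.2.2 Q o)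

open Classical in
/-- the perturbed pair, which is plt along `j` -/
theorem pair (v0 : 0 < v) (vu : v < u) : ∃ (D : BD K) (d : ℝ), 0 < d ∧ Pz j D ∧
    Klt 3 (adj 3 j (k + h j + (v • h E + D))) ∧
      AmpOn (Λ + ε • h E) (d • Λ - (k + h j + (v • h E + D)) - A) := by
  have s := c.zS oj (T.erase_subset j) (T.notMem_erase j)
  have dS := c.dS (fun _ => 1) (T.erase_subset j)
  simp only [one_smul] at dS
  have p : 0 < (u - v) / ε := div_pos (sub_pos.2 vu) c.e0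
  obtain ⟨η₀, h₀, m⟩ := ((AmpOn.refl c.smpX).smul p).opn dS
  obtain ⟨η, η0, η1, η2⟩ : ∃ η : ℝ, 0 < η ∧ η ≤ 1 ∧ |η| ≤ η₀ :=
    ⟨min 1 η₀, lt_min one_pos h₀, min_le_left _ _,
      by rw [abs_of_pos (lt_min one_pos h₀)]; exact min_le_right _ _⟩
  have a := (s.smul (sub_nonneg.2 η1)).add (c.zB oj)
  refine ⟨_, 1 + (u - v) / ε, by positivity, a, fun Q => (c.dlt j hj oj η η0 Q).trans_le ?_, ?_⟩
  · refine ((c.zE hj oj).smul (sub_pos.2 vu).le).le c.hK
      (c.bd1 hj oj (((c.zE hj oj).smul v0.le).add a)).1 ?_ Q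
    module
  · convert m η η2 using 1
    have e := c.eq
    rw [← Finset.add_sum_erase T h hj] at e
    have e' : ((u - v) / ε) • ε • h E = (u - v) • h E := by
      rw [smul_smul, div_mul_cancel₀ _ c.e0.ne']
    rw [smul_add ((u - v) / ε), e']
    linear_combination (norm := module) e

end Cx

open Classical in
theorem stp : STP := by
  intro K _ _ hK Y G b E t q o hb σ p a a' T Λ k B A H h u ε y w s
  have c : Cx Y G b E T Λ k B A H h u ε y := ⟨w, hK, t, o, hb⟩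
  have oσ := s.on hK c.smpX
  obtain ⟨j, hj, oj, pj⟩ := c.exj oσ a
  refine ⟨⟨j, hj, c.yle hj oj⟩, ?_⟩
  obtain ⟨τ, oτ, m⟩ := lft 2 K hK _ (h j) E j σ c.smpX c.bigX c.onE oj (c.ne hj) (c.hh j hj) oσ pj
  obtain ⟨v, v0, vu, hv⟩ := c.coef hj oj oσ oτ m pj a'
  obtain ⟨D, d, d0, zD, kl, am⟩ := c.pair hj oj v0 vu
  have zE := c.zE hj oj
  have z := (zE.smul v0.le).add zD
  obtain ⟨g1, g2, g3⟩ := c.bd1 hj oj z
  have g4 := c.bd2 hj oj z
  have g0 := (c.bd1 hj oj (zE.smul v0.le)).1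
  have g5 := (zD.le hK g0 (add_assoc _ _ _).symm τ).trans_lt hv
  generalize k + h j + (v • h E + D) = Γ at *
  have hW := Bm.ff_κ hK j
  have nf : Nef (d • Λ - Γ) := by simpa using am.nef.add c.smpA.nef
  have bg : Big (d • Λ - Γ) := by simpa using (am.big_iff.1 c.bigX).add_smp c.smpA
  have sX := res_smp hK j c.smpX
  have bX := (on_iff_big hK j c.smpX.nef).1 oj
  have s' : Onto (Λ + ε • h E) j τ := by
    obtain ⟨x, -, r⟩ := (c.des.smul d).neg.exists_add
    have e : x • (Λ + ε • h E) - Γ = d • Λ - Γ + (-(d • Λ) + x • (Λ + ε • h E)) := by abel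
    exact (ont 2 K hK _ _ Γ x j τ c.bigX (.refl c.smpX) c.smpX g2
      (e ▸ nf.add (r x le_rfl).nef) (e ▸ bg.add_smp (r x le_rfl)) g3 kl).1 bX oτ
  have sΛ := res_smp hK j c.smp
  have dΛ := res_dsc hK j c.des
  by_cases oΛ : On 2 (res j Λ) τ
  · refine .inl (m.onto hK c.des s ?_)
    have O := ont 2 K hK _ Λ Γ d j τ c.bigX c.des c.smp g2 nf bg g3 kl
    by_cases bΛ : Big (res j Λ)
    · exact O.1 bΛ oΛ
    refine O.2 (hor_on hW sΛ bΛ oΛ).1 ?_
    have e1 : 0 < res j (h E) τ := m.pos hK c.he.1 c.e0' zE.z fun n => by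
      simpa [c.he.2 E c.onE, Pl.δ_self] using n.1
    have one := c.one hj oj oτ e1
    have yj : y j ≠ 0 := fun e => a <| trf 2 K hK Y j E τ σ t.smp (m.symm.down hK c.dY) <|
      c.on_down c.smp c.desH c.eqH oΛ fun P hP _ => by
        by_cases r : P = j
        · exact .inl (r ▸ e)
        · exact .inr ⟨by rw [(c.hh P hP).2 j oj, Pl.δ_ne (Ne.symm r)], one P hP r⟩
    have rs : ∀ x : Pl K → ℝ, res j (∑ P ∈ T, x P • h P) = ∑ P ∈ T, x P • res j (h P) := fun x => by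
      rw [res_sum hK j T fun P hP => Submodule.smul_mem _ _ (c.hh P hP).1.car]
      exact Finset.sum_congr rfl fun P hP => res_smul hK j _ (c.hh P hP).1.car
    obtain ⟨l, hl, lj, Q, oQ, pQ⟩ := exq hW sΛ bΛ oΛ T (fun P => res j (h P))
      (fun P _ => res_car hK j _) _ (res_car hK j _) (res_nonneg hK j zE.car zE.nn zE.z) e1 y b
      (by
        rw [← rs, ← res_add hK j zE.car (c.dS _ le_rfl).car, ← c.eqb]
        exact res_dsc hK j (c.desY.trans hb.1))
      (by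
        rw [← rs, show ∑ P ∈ T, y P • h P = Λ - H from eq_sub_of_add_eq' c.eqH.symm]
        exact res_dsc hK j ((Dsc.refl c.smp).sub (c.desY.trans c.desH))) hj yj
    have oQ' := Pr.on_mono res' hW sΛ sX dΛ oQ
    have zl := c.zS oj (S := {l}) (by simpa) (by simpa using lj.symm)
    rw [Finset.sum_singleton] at zl
    have zS := c.zS oj (((T.erase j).erase_subset l).trans (T.erase_subset j)) (by simp)
    have zB := c.zB oj
    have z' := zl.add ((zS.add (zE.smul c.u0.le)).add zB)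
    have e := c.eq
    rw [← Finset.add_sum_erase T h hj,
      ← Finset.add_sum_erase _ h (Finset.mem_erase.2 ⟨lj, hl⟩)] at e
    have g6 := (c.bd1 hj oj z').1
    refine deg1 hW dgr con sX sΛ dΛ bΛ (c.bd2 hj oj z') ?_ oΛ oQ
      (fun r => pQ (r ▸ one l hl lj)) ?_ ?_
    · refine (res_smp hK j c.smpA).congr ?_
      rw [show Λ = k + h j + (h l + (∑ R ∈ (T.erase j).erase l, h R + u • h E + B)) + A from
        e.trans (by abel), res_add hK j g6 c.smpA.car]
      convert neg_mem (a1 3 K hK j _ g6).2.1 using 1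
      abel
    · refine (((zl.add zS).add ((zE.smul (sub_pos.2 vu).le).add zB)).le hK g0 ?_ τ).trans_lt hv
      module
    · exact (((zS.add (zE.smul c.u0.le)).add zB).le hK (c.bd1 hj oj zl).1
        (add_assoc _ _ _).symm Q).trans (c.ge1 hj oj hl lj oQ' pQ)
  · obtain ⟨e⟩ := m.iso hK c.smpX s s'
    have ad := a1 3 K hK j Γ g1
    obtain ⟨F, r, -, kF⟩ := Pr.ber_klt hW finite_empty ad.1 kl (res_smp hK j c.smpA)
    have cΛ : d • Λ ∈ Car K := Submodule.smul_mem _ _ c.smp.car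
    have aW : AmpOn (res j (Λ + ε • h E)) (d • res j Λ - (adj 3 j Γ + F)) := by
      refine (res_ampOn hK j am).congr ?_
      rw [res_sub hK j (sub_mem cΛ g1) c.smpA.car, res_sub hK j cΛ g1, res_smul hK j d c.smp.car]
      convert neg_mem (add_mem ad.2.1 r.prn) using 1
      abel
    have dW : Dsc (res j (Λ + ε • h E)) (adj 3 j Γ + F) := by
      simpa using (dΛ.smul d).sub aW.dsc
    have le : ∀ Q, dsc 3 (adj 3 j Γ + F) Q ≤ dsc 3 (adj 3 j Γ) Q := fun Q => by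
      rw [Pr.dsc_add]
      exact sub_le_self _ (r.nonneg Q)
    have bW : Bdy 2 (res j (Λ + ε • h E)) (adj 3 j Γ + F) := fun Q o => (le Q).trans (g4 Q o)
    have hτ := Bm.ff_κ hW τ
    exact .inr ⟨j, τ, _, _, d • res j Λ, ⟨e.symm⟩, sX, bX, dW, bW, kF, oτ, (le τ).trans_lt g5,
      sΛ.smul d0.le, dΛ.smul d, cab hW sX bX dW bW oτ (kF τ).le (sΛ.smul d0.le) (dΛ.smul d) aW
        (((Sg.nu_of_pg p).up e.toAlgHom (Bm.ff_κ (Bm.ff_κ hK E) σ) hτ).pg hτ)
        fun n => oΛ ((Pr.on_iff res' hW sΛ (sΛ.ampOn_smul d0)).2 n), aW⟩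

theorem trk : Lc.TRK := trk_of mon (Tj.seti_of (Mm.run Api.ma)) sta stp

end Vale.Agent.P287D.Tk
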