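import Vale.Agent.P287D.Tk.Cof
import Vale.Agent.P287D.Tk.Lft
import Vale.Agent.P287D.Ru.Dgr
import Vale.Agent.P287D.Tj.Set
import Vale.Agent.P287D.Mm.Run
import Vale.Agent.P287D.Api.Int
import Vale.Agent.P287D.Tk.Thr
import Vale.Agent.P287D.Tk.Trf
import Vale.Agent.P287D.Tk.Ont

/-!
# P287D, row TRK: one wall
-/

set_option linter.unusedVariables false
set_option linter.unusedSectionVars false

open Set

noncomputable section

namespace Vale.Agent.P287D.Tk.Hg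

variable {K : Type} [Field K] [Algebra ℂ K] {Y G b Λ k B A H : BD K} {E P j : Pl K}
  {T : Finset (Pl K)} {h : Pl K → BD K} {u ε : ℝ} {y : Pl K → ℝ}

/-- the three coefficient statements -/
structure Cf (Y G b : BD K) (E : Pl K) (T : Finset (Pl K)) (Λ k : BD K) (h : Pl K → BD K)
    (u ε : ℝ) (j : Pl K) : Prop where
  ge1 : ∀ l ∈ T, l ≠ j → ∀ Q : Pl j.κ, On 2 (res j (Λ + ε • h E)) Q → res j (h l) Q ≠ 0 →
    dsc 3 (adj 3 j (k + h j + h l)) Q ≤ -1
  one : ∀ τ : Pl j.κ, On 2 (res j (Λ + ε • h E)) τ → 0 < res j (h E) τ → ∀ l ∈ T, l ≠ j →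
    res j (h l) τ = 0
  coef : ∀ (σ : Pl E.κ) (τ : Pl j.κ), On 2 (res E (Λ + ε • h E)) σ →
    On 2 (res j (Λ + ε • h E)) τ → Sm (Λ + ε • h E) E σ j τ → 0 < res E (h j) σ →
    -2 < dsc 3 (adj 3 E (G + b)) σ →
    ∃ v, 0 < v ∧ v < u ∧ dsc 3 (adj 3 j (k + h j + v • h E)) τ < -1 / 2

theorem adj_le {n : ℕ} (hK : FF K (n + 1)) {Γ Γ' : BD K} (a : Γ ∈ Car K) (a' : Γ' ∈ Car K)
    (e : Γ ≤ Γ') (z : Γ P = Γ' P) (Q : Pl P.κ) : dsc n (adj n P Γ') Q ≤ dsc n (adj n P Γ) Q := by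
  obtain ⟨x, w⟩ := a4 n K hK P Γ a _ (sub_mem a' a)
  rw [add_sub_cancel] at x
  have := w (sub_nonneg.2 e) (sub_eq_zero.2 z.symm) Q
  rw [x]
  simp only [dsc, Pi.add_apply, Pi.sub_apply, Pi.zero_apply] at *
  linarith

open Classical in
/-- the pair with one component of coefficient one -/
def gm (k B : BD K) (h : Pl K → BD K) (T : Finset (Pl K)) (E j : Pl K) (η v : ℝ) : BD K :=
  k + h j + (1 - η) • ∑ R ∈ T.erase j, h R + v • h E + B

section

variable (c : Cx Y G b E T Λ k B A H h u ε y) (hj : j ∈ T) (oj : On 3 (Λ + ε • h E) j) {η v : ℝ}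
include c

open Classical in
theorem dS : Dsc (Λ + ε • h E) (∑ R ∈ T.erase j, h R) :=
  .sum c.smpX _ fun P hP => (c.hh P (Finset.mem_of_mem_erase hP)).1

open Classical in
theorem s0 : 0 ≤ ∑ R ∈ T.erase j, h R :=
  Finset.sum_nonneg fun P hP => c.h0 (Finset.mem_of_mem_erase hP)

include hj

open Classical in
theorem gm_eq : gm k B h T E j η v = Λ - A - η • ∑ R ∈ T.erase j, h R - (u - v) • h E := by
  have e := c.eq
  rw [← Finset.add_sum_erase T h hj] at e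
  rw [gm, e]
  module

theorem gm_dsc : Dsc (Λ + ε • h E) (gm k B h T E j η v + A) := by
  rw [gm_eq c hj, show ∀ S : BD K, Λ - A - η • S - (u - v) • h E + A = Λ - η • S - (u - v) • h E
    from fun S => by abel]
  exact (c.des.sub ((dS c).smul η)).sub (c.he.1.smul _)

theorem gm_car : gm k B h T E j η v ∈ Car K := by
  simpa using sub_mem (gm_dsc c hj).car c.smpA.car

theorem gm_bdy (h1 : η ≤ 1) (h2 : 0 ≤ v) : Bdy 3 (Λ + ε • h E) (gm k B h T E j η v) := fun P o => by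
  have a := c.h0 hj P
  have a' := mul_nonneg (sub_nonneg.2 h1) (s0 (j := j) c P)
  have a'' := mul_nonneg h2 (c.e0' P)
  have := c.kh.2 P o
  have := c.bz P o
  simp only [gm, dsc, Pi.add_apply, Pi.sub_apply, Pi.smul_apply, smul_eq_mul, Pi.zero_apply] at *
  linarith

include oj

open Classical in
theorem sj : (∑ R ∈ T.erase j, h R) j = 0 := by
  simpa using c.sum_out (fun _ => 1) (Finset.erase_subset j T) (Finset.notMem_erase j T) oj

theorem gm_j : gm k B h T E j η v j = k j + 1 := by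
  simp [gm, sj c hj oj, c.eT hj oj, c.bz j oj, (c.hh j hj).2 j oj, Pl.δ_self]

theorem gm_one : dsc 4 (gm k B h T E j η v) j = -1 := by
  simp [dsc, gm_j c hj oj, c.kh.2 j oj]

theorem gm_klt (h1 : 0 < η) (h2 : v ≤ u) : Klt 3 (adj 3 j (gm k B h T E j η v)) := fun Q =>
  (c.dlt j hj oj η h1 Q).trans_le (adj_le c.hK (gm_car c hj) (gm_car (v := u) c hj)
    (add_le_add_left (add_le_add_right (smul_le_smul_of_nonneg_right h2 c.e0') _) _)
    (by rw [gm_j c hj oj, gm_j c hj oj]) Q)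

theorem gm_le {v' : ℝ} (h1 : η ≤ 1) (h2 : v' ≤ v) (Q : Pl j.κ) :
    dsc 3 (adj 3 j (gm k B h T E j η v)) Q ≤ dsc 3 (adj 3 j (k + h j + v' • h E)) Q :=
  adj_le c.hK ((c.kh.1.add (c.hh j hj).1).add (c.he.1.smul _)).car (gm_car c hj) (fun P => by
    have a' := mul_nonneg (sub_nonneg.2 h1) (s0 (j := j) c P)
    have a'' := mul_le_mul_of_nonneg_right h2 (c.e0' P)
    have := c.b0 P
    simp only [gm, Pi.add_apply, Pi.smul_apply, smul_eq_mul, Pi.zero_apply] at *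
    linarith) (by
    rw [gm_j c hj oj]
    simp [c.eT hj oj, (c.hh j hj).2 j oj, Pl.δ_self]) Q

theorem gm_le' {l : Pl K} (hl : l ∈ T) (ne : l ≠ j) (h2 : 0 ≤ v) (Q : Pl j.κ) :
    dsc 3 (adj 3 j (gm k B h T E j 0 v)) Q ≤ dsc 3 (adj 3 j (k + h j + h l)) Q := by
  classical
  refine adj_le c.hK ((c.kh.1.add (c.hh j hj).1).add (c.hh l hl).1).car (gm_car c hj) (fun P => ?_)
    ?_ Q
  · have a := Finset.single_le_sum (f := h) (s := T.erase j)
      (fun P hP => c.h0 (Finset.mem_of_mem_erase hP)) (Finset.mem_erase.2 ⟨ne, hl⟩) P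
    have a'' := mul_nonneg h2 (c.e0' P)
    have := c.b0 P
    simp only [gm, Pi.add_apply, Pi.smul_apply, smul_eq_mul, Pi.zero_apply] at *
    linarith
  · rw [gm_j c hj oj]
    simp [(c.hh l hl).2 j oj, (c.hh j hj).2 j oj, Pl.δ_self, Pl.δ_ne ne.symm]

theorem gm_nef : ∃ x : ℝ, Smp (x • (Λ + ε • h E) - gm k B h T E j η v) := by
  obtain ⟨x, -, s⟩ := (gm_dsc (η := η) (v := v) c hj).neg.exists_add
  refine ⟨x, ?_⟩
  have := (s x le_rfl).add c.smpA
  rwa [show ∀ g X : BD K, -(g + A) + x • X + A = x • X - g from fun _ _ => by abel] at this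

theorem gm_adj (h1 : η ≤ 1) (h2 : 0 ≤ v) :
    Bdy 2 (res j (Λ + ε • h E)) (adj 3 j (gm k B h T E j η v)) :=
  let ⟨x, s⟩ := gm_nef (η := η) (v := v) c hj oj
  a3g 2 K c.hK _ j c.smpX c.bigX oj _ x s.nef (gm_bdy c hj h1 h2) (gm_one c hj oj)

end

theorem wall (dgr : DGR) (con : CON) (lft : LFT) (c : Cx Y G b E T Λ k B A H h u ε y)
    (cf : ∀ j ∈ T, On 3 (Λ + ε • h E) j → Cf Y G b E T Λ k h u ε j) {σ : Pl E.κ}
    (p : pg σ.κ 2 ≠ 0) (a : ¬ On 2 (res E Y) σ) (a' : -2 < dsc 3 (adj 3 E (G + b)) σ)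
    (o : Onto (Λ + ε • h E) E σ) : (∃ P ∈ T, y P ≤ 0) ∧ (Onto Λ E σ ∨ Fin' σ.κ K) := by
  classical
  have hK := c.hK
  have oσ := o.on hK c.smpX
  obtain ⟨j, hj, oj, pj⟩ := c.exj oσ a
  refine ⟨⟨j, hj, c.yle hj oj⟩, ?_⟩
  obtain ⟨τ, oτ, s⟩ := lft 2 K hK _ _ E j σ c.smpX c.bigX c.onE oj (c.ne hj) (c.hh j hj) oσ pj
  have hW := Bm.ff_κ hK j
  have F := cf j hj oj
  obtain ⟨v, v0, vu, half⟩ := F.coef σ τ oσ oτ s pj a'
  have pe : 0 < res j (h E) τ := s.pos hK c.he.1 c.e0' (c.eT hj oj) fun z => by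
    simpa [c.he.2 E c.onE, Pl.δ_self] using z.1
  have x0 : 0 < (u - v) / ε := div_pos (sub_pos.2 vu) c.e0
  obtain ⟨η₀, e0, am⟩ := ((AmpOn.refl c.smpX).smul x0).opn (dS (j := j) c)
  obtain ⟨η, η0, η1, am⟩ : ∃ η : ℝ, 0 < η ∧ η ≤ 1 ∧ AmpOn (Λ + ε • h E)
      (((u - v) / ε) • (Λ + ε • h E) + η • ∑ R ∈ T.erase j, h R) :=
    ⟨min η₀ 1, lt_min e0 one_pos, min_le_right _ _, am _ (by
      rw [abs_of_pos (lt_min e0 one_pos)]; exact min_le_left _ _)⟩
  set D := ((u - v) / ε) • (Λ + ε • h E) + η • ∑ R ∈ T.erase j, h R with hD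
  have eD : (1 + (u - v) / ε) • Λ - gm k B h T E j η v = D + A := by
    rw [gm_eq c hj, hD, smul_add, smul_smul, div_mul_cancel₀ _ c.e0.ne']
    module
  have kl := gm_klt c hj oj η0 vu.le
  have bd := gm_bdy c hj η1 v0.le
  have bW := (res'.on 3 K hK _ j c.smpX).1 oj
  have sW := res_smp hK j c.smpX
  have sM := res_smp hK j c.smp
  have dM := res_dsc hK j c.des
  have oX : Onto (Λ + ε • h E) j τ := by
    obtain ⟨x, sx⟩ := gm_nef (η := η) (v := v) c hj oj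
    have e : (x + 1) • (Λ + ε • h E) - gm k B h T E j η v =
      (Λ + ε • h E) + (x • (Λ + ε • h E) - gm k B h T E j η v) := by module
    exact (ont 2 K hK _ _ _ (x + 1) j τ c.bigX (.refl c.smpX) c.smpX bd (e ▸ (c.smpX.add sx).nef)
      (e ▸ c.bigX.add_smp sx) (gm_one c hj oj) kl).1 bW oτ
  obtain ⟨i⟩ := s.iso hK c.smpX o oX
  have pτ := ((Sg.nu_of_pg p).up i.toAlgHom (Bm.ff_κ (Bm.ff_κ hK E) σ) (Bm.ff_κ hW τ)).pg
    (Bm.ff_κ hW τ)
  by_cases oM : On 2 (res j Λ) τ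
  · have on := ont 2 K hK _ _ _ _ j τ c.bigX c.des c.smp bd (eD ▸ (am.smp.add c.smpA).nef)
      (eD ▸ (am.big_iff.1 c.bigX).add_smp c.smpA) (gm_one c hj oj) kl
    refine .inl (s.onto hK c.des o ?_)
    by_cases bM : Big (res j Λ)
    · exact on.1 bM oM
    have one := F.one τ oτ pe
    have yj : y j ≠ 0 := fun z => a (c.on_down c.smp c.desH c.eqH
      (trf 2 K hK Λ j E τ σ c.smp (s.down hK c.des).symm oM) fun P hP q => by
        by_cases e : P = j
        · exact .inl (e ▸ z)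
        · exact .inr (s.symm.nv hK (c.hh P hP).1 (c.h0 hP)
            ⟨by rw [(c.hh P hP).2 j oj, Pl.δ_ne (Ne.symm e)], one P hP e⟩))
    have rs : ∀ x : Pl K → ℝ, res j (∑ P ∈ T, x P • h P) = ∑ P ∈ T, x P • res j (h P) := fun x => by
      rw [res_sum hK j T fun P hP => ((c.hh P hP).1.smul _).car]
      exact Finset.sum_congr rfl fun P hP => res_smul hK j _ (c.hh P hP).1.car
    obtain ⟨l, hl, ne, Q, oQ, z⟩ := exq hW sM bM oM T (fun P => res j (h P))
      (fun _ _ => res_car hK j _) _ (res_car hK j _)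
      (res_nonneg hK j c.he.1.car c.e0' (c.eT hj oj)) pe y b (by
        rw [← rs, ← res_add hK j c.he.1.car (c.dS _ le_rfl).car, ← c.eqb]
        exact res_dsc hK j (c.desY.trans c.hb.1)) (by
        rw [← rs, ← sub_eq_of_eq_add' c.eqH]
        exact res_dsc hK j ((Dsc.refl c.smp).sub (c.desY.trans c.desH))) hj yj
    refine on.2 (hor_on hW sM bM oM).1 (deg1 hW dgr con sW sM dM bM
      (gm_adj (η := 0) c hj oj zero_le_one c.u0.le) ((res_smp hK j c.smpA).congr ?_) oM oQ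
      (fun e => z (e ▸ one l hl ne)) ((gm_le c hj oj zero_le_one vu.le τ).trans_lt half)
      ((gm_le' c hj oj hl ne c.u0.le Q).trans
        (F.ge1 l hl ne Q (Pr.on_mono res' hW sM sW dM oQ) z)))
    have := neg_mem (a1 3 K hK j _ (gm_car (η := 0) (v := u) c hj)).2.1
    rw [gm_eq c hj, zero_smul, sub_self, zero_smul, sub_zero, sub_zero,
      res_sub hK j c.smp.car c.smpA.car] at this
    rw [gm_eq c hj, zero_smul, sub_self, zero_smul, sub_zero, sub_zero]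
    rwa [show ∀ a m n : BD j.κ, -(a - (m - n)) = m - a - n from fun _ _ _ => by abel] at this
  obtain ⟨N, r, -, kn⟩ := Pr.ber_klt hW finite_empty (a1 3 K hK j _ (gm_car c hj)).1 kl
    (res_smp hK j c.smpA)
  have le : ∀ Q, dsc 3 (adj 3 j (gm k B h T E j η v) + N) Q ≤
      dsc 3 (adj 3 j (gm k B h T E j η v)) Q := fun Q => by
    have := r.1 Q
    simp only [dsc, Pi.add_apply, Pi.sub_apply, Pi.zero_apply] at *
    linarith
  have q : adj 3 j (gm k B h T E j η v) + N - res j (gm k B h T E j η v + A) ∈ Prn j.κ := by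
    rw [res_add hK j (gm_car c hj) c.smpA.car, add_sub_add_comm]
    exact add_mem (a1 3 K hK j _ (gm_car c hj)).2.1 r.2
  have x1 : 0 < 1 + (u - v) / ε := by linarith
  have d := (res_dsc hK j (gm_dsc c hj)).congr q
  have e := fun Q oQ => (le Q).trans (gm_adj c hj oj η1 v0.le Q oQ)
  have m : AmpOn (res j (Λ + ε • h E))
      ((1 + (u - v) / ε) • res j Λ - (adj 3 j (gm k B h T E j η v) + N)) := by
    refine (res_ampOn hK j am).congr ?_
    have e' : D = (1 + (u - v) / ε) • Λ - (gm k B h T E j η v + A) := by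
      rw [← sub_sub, eD, add_sub_cancel_right]
    rw [e', res_sub hK j (Submodule.smul_mem _ _ c.smp.car) (gm_dsc c hj).car,
      res_smul hK j _ c.smp.car, sub_sub_sub_cancel_left, ← neg_sub]
    exact neg_mem q
  exact .inr ⟨j, τ, _, _, _, ⟨i.symm⟩, sW, bW, d, e, kn, oτ,
    (le τ).trans_lt ((gm_le c hj oj η1 le_rfl τ).trans_lt half), sM.smul x1.le, dM.smul _,
    cab hW sW bW d e oτ (kn τ).le (sM.smul x1.le) (dM.smul _) m pτ fun z =>
      oM (Pr.on_mono res' hW (sM.smul x1.le) sM ((Dsc.refl sM).smul _) z), m⟩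

theorem stp : STP := fun K _ _ hK Y G b E t q o hb σ p a a' T Λ k B A H h u ε y w s =>
  have c : Cx Y G b E T Λ k B A H h u ε y := ⟨w, hK, t, o, hb⟩
  wall dgr con lft c (fun j hj oj => ⟨fun l hl ne Q oQ p => c.ge1 hj oj hl ne oQ p,
    fun τ oτ e => c.one hj oj oτ e, fun σ τ oσ oτ s p a => c.coef hj oj oσ oτ s p a⟩) p a a' s

/-- **TRK** -/
theorem trk : Lc.TRK := trk_of mon (Tj.seti_of (Mm.run Api.ma)) sta stp

end Vale.Agent.P287D.Tk.Hg
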