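import Vale.Agent.P287D.Tk.Flag
import Vale.Agent.P287D.Pr.Lr

/-!
# P287D, row TRK: the geometry of a wall
-/

set_option linter.unusedVariables false

open Set

noncomputable section

namespace Vale.Agent.P287D.Tk

variable {K : Type} [Field K] [Algebra ℂ K] {Y G b Λ k B A H : BD K} {E P j : Pl K}
  {T : Finset (Pl K)} {h : Pl K → BD K} {u ε : ℝ} {y : Pl K → ℝ}

/-- a wall with the data of the row -/
structure Cx (Y G b : BD K) (E : Pl K) (T : Finset (Pl K)) (Λ k B A H : BD K) (h : Pl K → BD K)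
    (u ε : ℝ) (y : Pl K → ℝ) : Prop extends Wall Y G b E T Λ k B A H h u ε y where
  hK : FF K 4
  t : Term 3 Y G
  o : On 3 Y E
  hb : Hull 3 Y E.δ b

namespace Cx

variable (c : Cx Y G b E T Λ k B A H h u ε y)
include c

theorem smpX : Smp (Λ + ε • h E) := c.des.smp

theorem bigX : Big (Λ + ε • h E) := c.des.big c.big

theorem dY : Dsc (Λ + ε • h E) Y := c.des.trans c.desY

theorem onY (e : On 3 Y P) : On 3 (Λ + ε • h E) P := Pr.on_mono res' c.hK c.t.smp c.smpX c.dY e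

theorem onE : On 3 (Λ + ε • h E) E := c.onY c.o

theorem ne (hP : P ∈ T) : P ≠ E := fun e => c.off P hP (e ▸ c.o)

theorem h0 (hP : P ∈ T) : 0 ≤ h P :=
  Pr.hart res' c.hK c.smpX c.bigX (c.hh P hP).1 fun R o => by
    rw [(c.hh P hP).2 R o]
    exact P.δ_nonneg R

theorem e0' : 0 ≤ h E :=
  Pr.hart res' c.hK c.smpX c.bigX c.he.1 fun R o => by
    rw [c.he.2 R o]
    exact E.δ_nonneg R

theorem hz (hP : P ∈ T) (e : ¬ On 3 (Λ + ε • h E) P) : h P = 0 :=
  Pr.hart_eq res' c.hK c.smpX c.bigX (c.hh P hP).1 (.zero c.smpX) fun R o => by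
    rw [(c.hh P hP).2 R o]
    exact Pl.δ_ne fun a => e (a ▸ o)

theorem dS (x : Pl K → ℝ) {S : Finset (Pl K)} (e : S ⊆ T) :
    Dsc (Λ + ε • h E) (∑ P ∈ S, x P • h P) :=
  .sum c.smpX _ fun P hP => (c.hh P (e hP)).1.smul _

theorem sum_in (x : Pl K → ℝ) {S : Finset (Pl K)} (e : S ⊆ T) (hP : P ∈ S)
    (o : On 3 (Λ + ε • h E) P) : (∑ R ∈ S, x R • h R) P = x P := by
  rw [Finset.sum_apply, Finset.sum_eq_single_of_mem P hP fun R hR a => ?_]
  · simp [(c.hh P (e hP)).2 P o, Pl.δ_self]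
  · simp [(c.hh R (e hR)).2 P o, Pl.δ_ne a.symm]

theorem sum_out (x : Pl K → ℝ) {S : Finset (Pl K)} (e : S ⊆ T) (hP : P ∉ S)
    (o : On 3 (Λ + ε • h E) P) : (∑ R ∈ S, x R • h R) P = 0 := by
  rw [Finset.sum_apply]
  refine Finset.sum_eq_zero fun R hR => ?_
  have : P ≠ R := fun a => hP (a ▸ hR)
  simp [(c.hh R (e hR)).2 P o, Pl.δ_ne this]

theorem eT (hP : P ∈ T) (o : On 3 (Λ + ε • h E) P) : h E P = 0 := by
  rw [c.he.2 P o, Pl.δ_ne (c.ne hP)]

theorem eqb : b = h E + ∑ P ∈ T, b P • h P :=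
  Pr.hart_eq res' c.hK c.smpX c.bigX (c.dY.trans c.hb.1) (c.he.1.add (c.dS _ le_rfl))
    fun P o => by
      rcases c.on P o with a | a
      · rw [Pi.add_apply, c.sum_out _ le_rfl (fun e => c.off P e a) o, c.hb.2 P a, c.he.2 P o,
          add_zero]
      · rw [Pi.add_apply, c.sum_in _ le_rfl a o, c.eT a o, zero_add]

theorem eqk : k = G + ∑ P ∈ T, dsc 4 G P • h P :=
  Pr.hart_eq res' c.hK c.smpX c.bigX c.kh.1 ((c.dY.trans c.t.hull.1).add (c.dS _ le_rfl))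
    fun P o => by
      rcases c.on P o with a | a
      · rw [Pi.add_apply, c.sum_out _ le_rfl (fun e => c.off P e a) o, c.kh.2 P o,
          c.t.hull.2 P a, add_zero]
      · rw [Pi.add_apply, c.sum_in _ le_rfl a o, c.kh.2 P o]
        simp [dsc]

theorem neg {x : Pl K → ℝ} {M N : BD K} (s : Smp M) (d : Dsc Y N)
    (e : M = N + ∑ P ∈ T, x P • h P) (hP : P ∈ T) (o : On 3 (Λ + ε • h E) P) : x P ≤ 0 := by
  obtain ⟨a, ha, k⟩ := d.neg.exists_add
  have : ∑ P ∈ T, x P • h P ≤ 0 := by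
    refine Pr.neg res' c.hK (c := a) c.t.smp c.t.big (c.dS x le_rfl).car ?_ fun R r => ?_
    · have := (s.add (k a le_rfl)).nef
      rwa [e, show ∀ S : BD K, N + S + (-N + a • Y) = S + a • Y from fun S => by abel] at this
    · exact (c.sum_out x le_rfl (fun e => c.off R e r) (c.onY r)).le
  simpa [c.sum_in x le_rfl hP o] using this P

theorem yle (hP : P ∈ T) (o : On 3 (Λ + ε • h E) P) : y P ≤ 0 :=
  c.neg c.smp c.desH c.eqH hP o

theorem eqX : Λ + ε • h E = H + ε • b + ∑ P ∈ T, (y P - ε * b P) • h P := by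
  have e : h E = b - ∑ P ∈ T, b P • h P := eq_sub_of_add_eq c.eqb.symm
  have e' := c.eqH
  simp only [sub_smul, mul_smul, Finset.sum_sub_distrib, ← Finset.smul_sum]
  rw [e, smul_sub]
  linear_combination (exp := 1) e'

/-- a surface on which a class below a class from `V Y` is big lies on `V Y` -/
theorem on_down {W : Pl K} {τ : Pl W.κ} {x : Pl K → ℝ} {M N : BD K} (s : Smp M) (d : Dsc Y N)
    (e : M = N + ∑ P ∈ T, x P • h P) (o : On 2 (res W M) τ)
    (z : ∀ P ∈ T, On 3 (Λ + ε • h E) P → x P = 0 ∨ Nv W τ (h P)) : On 2 (res W Y) τ := by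
  have hW := Bm.ff_κ c.hK W
  have a : ∀ P ∈ T, -x P • h P ∈ Car K ∧ 0 ≤ -x P • h P ∧ Nv W τ (-x P • h P) := fun P hP => by
    have p := (c.hh P hP).1.car
    have z0 : Nv W τ (0 : BD K) := ⟨rfl, by rw [res_zero c.hK]; rfl⟩
    by_cases q : On 3 (Λ + ε • h E) P
    · refine ⟨Submodule.smul_mem _ _ p, smul_nonneg (neg_nonneg.2 (c.neg s d e hP q)) (c.h0 hP), ?_⟩
      rcases z P hP q with r | r
      · simpa [r] using z0
      · exact r.smul c.hK p _
    · simpa [c.hz hP q] using z0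
  obtain ⟨S, S1, S2, S3, S4⟩ : ∃ S ∈ Car K, 0 ≤ S ∧ Nv W τ S ∧ N = M + S := by
    refine ⟨∑ P ∈ T, -x P • h P, sum_mem fun P hP => (a P hP).1,
      Finset.sum_nonneg fun P hP => (a P hP).2.1, ⟨?_, ?_⟩, ?_⟩
    · rw [Finset.sum_apply]
      exact Finset.sum_eq_zero fun P hP => (a P hP).2.2.1
    · rw [res_sum c.hK W T fun P hP => (a P hP).1, Finset.sum_apply]
      exact Finset.sum_eq_zero fun P hP => (a P hP).2.2.2
    · simp [e]
  rw [on_iff_big hW τ (res_smp c.hK W s).nef] at o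
  rw [on_iff_big hW τ (res_smp c.hK W c.t.smp).nef]
  refine (res_dsc hW τ (res_dsc c.hK W d)).big ?_
  rw [S4, res_add c.hK W s.car S1, res_add hW τ (res_car c.hK W _) (res_car c.hK W _)]
  exact o.add_eff (.of_nonneg
    (res_nonneg hW τ (res_car c.hK W _) (res_nonneg c.hK W S1 S2 S3.1) S3.2))

theorem exj {σ : Pl E.κ} (o : On 2 (res E (Λ + ε • h E)) σ) (a : ¬ On 2 (res E Y) σ) :
    ∃ j ∈ T, On 3 (Λ + ε • h E) j ∧ 0 < res E (h j) σ := by
  by_contra z
  push Not at z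
  refine a (c.on_down c.smpX (c.desH.add (c.hb.1.smul ε)) c.eqX o fun P hP q => .inr ?_)
  have e : h P E = 0 := by rw [(c.hh P hP).2 E c.onE, Pl.δ_ne (c.ne hP).symm]
  exact ⟨e, (z P hP q).antisymm (res_nonneg c.hK E (c.hh P hP).1.car (c.h0 hP) e σ)⟩

end Cx

end Vale.Agent.P287D.Tk
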